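import Vale.Agent.P073.ConGlue

/-!
# P073, block PA (helper260): adding a collar to a conical ball

`ConBall.add_collar`: `D` a conical `n`-ball with boundary `β`, `L` a conical copy of `β × [0,1]`
which meets `D` in `β = β × {0}`; then `D ∪ L` is a conical ball with boundary `β × {1}`.
-/

open Set Metric Topology Filter

namespace P073

variable {E F G : Type*} [NormedAddCommGroup E] [NormedSpace ℝ E]
  [NormedAddCommGroup F] [NormedSpace ℝ F] [NormedAddCommGroup G] [NormedSpace ℝ G]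

/-! ### Products -/

theorem ConicalSetAt.prod {X : Set E} {Y : Set F} {x : E} {y : F} (hX : ConicalSetAt X x)
    (hY : ConicalSetAt Y y) : ConicalSetAt (X ×ˢ Y) (x, y) := by
  obtain ⟨r, hr, hX⟩ := hX
  obtain ⟨s, hs, hY⟩ := hY
  refine ⟨min r s, lt_min hr hs, fun v hv hxv t ht => ⟨?_, ?_⟩⟩
  · exact hX v.1 ((norm_fst_le v).trans (hv.trans (min_le_left _ _))) hxv.1 t ht
  · exact hY v.2 ((norm_snd_le v).trans (hv.trans (min_le_right _ _))) hxv.2 t ht

theorem ConicalSet.prod {X : Set E} {Y : Set F} (hX : ConicalSet X) (hY : ConicalSet Y) :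
    ConicalSet (X ×ˢ Y) := fun p hp => (hX p.1 hp.1).prod (hY p.2 hp.2)

theorem conicalOn_fst {X : Set (E × F)} (hX : ConicalSet X) :
    ConicalOn (fun p : E × F => p.1) X :=
  conicalOn_linear (LinearMap.fst ℝ E F) hX

theorem conicalOn_snd {X : Set (E × F)} (hX : ConicalSet X) :
    ConicalOn (fun p : E × F => p.2) X :=
  conicalOn_linear (LinearMap.snd ℝ E F) hX

theorem conicalSet_Icc (a b : ℝ) : ConicalSet (Icc a b) := Convex.conicalSet (convex_Icc a b)

/-- product of conical homeomorphisms -/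
def ConHomeo.prod {X : Set E} {Y : Set F} {E' F' : Type*} [NormedAddCommGroup E']
    [NormedSpace ℝ E'] [NormedAddCommGroup F'] [NormedSpace ℝ F'] {X' : Set E'} {Y' : Set F'}
    (h : ConHomeo X X') (k : ConHomeo Y Y') : ConHomeo (X ×ˢ Y) (X' ×ˢ Y') where
  toFun := fun p => (h.toFun p.1, k.toFun p.2)
  invFun := fun p => (h.invFun p.1, k.invFun p.2)
  mapsTo := fun _ hp => ⟨h.mapsTo hp.1, k.mapsTo hp.2⟩
  mapsTo_inv := fun _ hp => ⟨h.mapsTo_inv hp.1, k.mapsTo_inv hp.2⟩
  left_inv := fun _ hp => Prod.ext (h.left_inv hp.1) (k.left_inv hp.2)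
  right_inv := fun _ hp => Prod.ext (h.right_inv hp.1) (k.right_inv hp.2)
  cont := (h.cont.comp continuousOn_fst fun _ hp => hp.1).prodMk
    (k.cont.comp continuousOn_snd fun _ hp => hp.2)
  cont_inv := (h.cont_inv.comp continuousOn_fst fun _ hp => hp.1).prodMk
    (k.cont_inv.comp continuousOn_snd fun _ hp => hp.2)
  conical := by
    have hc : ConicalSet (X ×ˢ Y) := h.conicalSet_left.prod k.conicalSet_left
    exact (ConicalOn.comp (g := h.toFun) (h := fun p : E × F => p.1) h.conical (conicalOn_fst hc)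
      (fun _ hp => hp.1) continuousOn_fst).prodMk
      (ConicalOn.comp (g := k.toFun) (h := fun p : E × F => p.2) k.conical (conicalOn_snd hc)
      (fun _ hp => hp.2) continuousOn_snd)

@[simp] theorem ConHomeo.prod_toFun {X : Set E} {Y : Set F} {E' F' : Type*}
    [NormedAddCommGroup E'] [NormedSpace ℝ E'] [NormedAddCommGroup F'] [NormedSpace ℝ F']
    {X' : Set E'} {Y' : Set F'} (h : ConHomeo X X') (k : ConHomeo Y Y') (p : E × F) :
    (h.prod k).toFun p = (h.toFun p.1, k.toFun p.2) := rfl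

/-- the increasing affine homeomorphism of intervals -/
noncomputable def ConHomeo.affIcc {a b c d : ℝ} (hab : a < b) (hcd : c < d) :
    ConHomeo (Icc a b) (Icc c d) where
  toFun := fun x => c + (x - a) / (b - a) * (d - c)
  invFun := fun x => a + (x - c) / (d - c) * (b - a)
  mapsTo := fun x hx => by
    have h1 : 0 < b - a := sub_pos.2 hab
    have h2 : 0 < d - c := sub_pos.2 hcd
    have h3 : 0 ≤ (x - a) / (b - a) := div_nonneg (sub_nonneg.2 hx.1) h1.le
    have h4 : (x - a) / (b - a) ≤ 1 := (div_le_one h1).2 (by linarith [hx.2])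
    constructor <;> nlinarith
  mapsTo_inv := fun x hx => by
    have h1 : 0 < b - a := sub_pos.2 hab
    have h2 : 0 < d - c := sub_pos.2 hcd
    have h3 : 0 ≤ (x - c) / (d - c) := div_nonneg (sub_nonneg.2 hx.1) h2.le
    have h4 : (x - c) / (d - c) ≤ 1 := (div_le_one h2).2 (by linarith [hx.2])
    constructor <;> nlinarith
  left_inv := fun x _ => by
    have h1 : b - a ≠ 0 := (sub_pos.2 hab).ne'
    have h2 : d - c ≠ 0 := (sub_pos.2 hcd).ne'
    field_simp; ring
  right_inv := fun x _ => by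
    have h1 : b - a ≠ 0 := (sub_pos.2 hab).ne'
    have h2 : d - c ≠ 0 := (sub_pos.2 hcd).ne'
    field_simp; ring
  cont := by fun_prop
  cont_inv := by fun_prop
  conical := by
    intro x hx
    obtain ⟨r, hr, H⟩ := conicalSet_Icc a b x hx
    refine ⟨r, hr, fun v hv hxv t ht => ⟨H v hv hxv t ht, ?_⟩⟩
    simp only [smul_eq_mul]
    ring

theorem ConHomeo.affIcc_left {a b c d : ℝ} (hab : a < b) (hcd : c < d) :
    (ConHomeo.affIcc hab hcd).toFun a = c := by
  simp [ConHomeo.affIcc]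

theorem ConHomeo.affIcc_right {a b c d : ℝ} (hab : a < b) (hcd : c < d) :
    (ConHomeo.affIcc hab hcd).toFun b = d := by
  have : b - a ≠ 0 := (sub_pos.2 hab).ne'
  simp [ConHomeo.affIcc, div_self this]

/-! ### The standard annulus -/

theorem conicalOn_norm_pi (n : ℕ) {X : Set (Fin n → ℝ)} (hX : ConicalSet X) :
    ConicalOn (fun x : Fin n → ℝ => ‖x‖) X := by
  have hu : ConicalSet (univ : Set (Fin n → ℝ)) := IsOpen.conicalSet isOpen_univ
  suffices ConicalOn (fun x : Fin n → ℝ => ‖x‖) univ from this.mono hX (subset_univ _)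
  -- the maximum over a finite set of coordinates
  have key : ∀ s : Finset (Fin n), ConicalOn (fun x : Fin n → ℝ =>
      ((s.sup fun i => ‖x i‖₊ : NNReal) : ℝ)) univ ∧ Continuous (fun x : Fin n → ℝ =>
      ((s.sup fun i => ‖x i‖₊ : NNReal) : ℝ)) := by
    classical
    intro s
    induction s using Finset.induction_on with
    | empty =>
      refine ⟨?_, ?_⟩
      · simp only [Finset.sup_empty]; exact conicalOn_const _ hu
      · simp only [Finset.sup_empty]; exact continuous_const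
    | insert a s ha ih =>
      have h1 : ConicalOn (fun x : Fin n → ℝ => ‖x a‖) univ := by
        have h1 : ConicalOn (fun x : Fin n → ℝ => x a) univ :=
          conicalOn_linear (LinearMap.proj a : (Fin n → ℝ) →ₗ[ℝ] ℝ) hu
        exact h1.rmax h1.neg (by fun_prop) (by fun_prop)
      have h2 : Continuous (fun x : Fin n → ℝ => ‖x a‖) := by fun_prop
      have e : (fun x : Fin n → ℝ => (((insert a s).sup fun i => ‖x i‖₊ : NNReal) : ℝ)) =
          fun x => max ‖x a‖ ((s.sup fun i => ‖x i‖₊ : NNReal) : ℝ) := by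
        funext x
        rw [Finset.sup_insert, NNReal.coe_max, coe_nnnorm]
      rw [e]
      exact ⟨h1.rmax ih.1 h2.continuousOn ih.2.continuousOn, h2.max ih.2⟩
  exact (key Finset.univ).1

/-- `annR s v`: for `s = 1` the identity, for `s = 1/2` the homothety `v / 2` -/
noncomputable def annR (s v : ℝ) : ℝ := min (v + (1 - s)) (max (v / 2) (v - (1 - s)))

/-- the inverse of `annR s` -/
noncomputable def annI (s u : ℝ) : ℝ := max (u - (1 - s)) (min (2 * u) (u + (1 - s)))

theorem annI_annR {s : ℝ} (hs : s ≤ 1) (v : ℝ) : annI s (annR s v) = v := by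
  unfold annI annR
  rcases le_total (v / 2) (v - (1 - s)) with h | h
  · rw [max_eq_right h]
    rcases le_total (v + (1 - s)) (v - (1 - s)) with h' | h'
    · rw [min_eq_left h']
      have h1 : min (2 * (v + (1 - s))) (v + (1 - s) + (1 - s)) ≤ v := by
        refine (min_le_right _ _).trans (by linarith)
      rw [max_eq_left (by linarith)]
      linarith
    · rw [min_eq_right h']
      have h1 : min (2 * (v - (1 - s))) (v - (1 - s) + (1 - s)) = v := by
        rw [min_eq_right (by linarith)]; ring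
      rw [h1, max_eq_right (by linarith)]
  · rw [max_eq_left h]
    rcases le_total (v + (1 - s)) (v / 2) with h' | h'
    · rw [min_eq_left h']
      have h1 : min (2 * (v + (1 - s))) (v + (1 - s) + (1 - s)) ≤ v := by
        refine (min_le_left _ _).trans (by linarith)
      rw [max_eq_left (by linarith)]
      linarith
    · rw [min_eq_right h']
      have h1 : min (2 * (v / 2)) (v / 2 + (1 - s)) = v := by
        rw [min_eq_left (by linarith)]; ring
      rw [h1, max_eq_right (by linarith)]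

theorem annR_annI {s : ℝ} (hs : s ≤ 1) (u : ℝ) : annR s (annI s u) = u := by
  unfold annI annR
  rcases le_total (2 * u) (u + (1 - s)) with h | h
  · rw [min_eq_left h]
    rcases le_total (u - (1 - s)) (2 * u) with h' | h'
    · rw [max_eq_right h']
      have h1 : max (2 * u / 2) (2 * u - (1 - s)) = u := by
        rw [max_eq_left (by linarith)]; ring
      rw [h1, min_eq_right (by linarith)]
    · rw [max_eq_left h']
      have h1 : u ≤ max ((u - (1 - s)) / 2) (u - (1 - s) - (1 - s)) := by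
        refine le_max_of_le_left (by linarith)
      rw [min_eq_left (by linarith)]
      ring
  · rw [min_eq_right h]
    rcases le_total (u - (1 - s)) (u + (1 - s)) with h' | h'
    · rw [max_eq_right h']
      have h1 : max ((u + (1 - s)) / 2) (u + (1 - s) - (1 - s)) = u := by
        rw [max_eq_right (by linarith)]; ring
      rw [h1, min_eq_right (by linarith)]
    · rw [max_eq_left h']
      have h1 : u ≤ max ((u - (1 - s)) / 2) (u - (1 - s) - (1 - s)) := by
        refine le_max_of_le_right (by linarith)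
      rw [min_eq_left (by linarith)]
      ring

theorem annR_one (v : ℝ) : annR 1 v = v := by
  unfold annR
  rw [sub_self, add_zero, sub_zero]
  exact min_eq_left (le_max_right _ _)

theorem annR_half {v : ℝ} (hv : |v| ≤ 1) : annR (1 / 2) v = v / 2 := by
  unfold annR
  rw [abs_le] at hv
  rw [max_eq_left (by linarith), min_eq_right (by linarith)]

theorem abs_annR_le {s v : ℝ} (hs : 1 / 2 ≤ s) (hv : |v| ≤ 1) : |annR s v| ≤ s := by
  unfold annR
  rw [abs_le] at hv ⊢
  refine ⟨le_min (by linarith) (le_max_of_le_left (by linarith)), ?_⟩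
  exact (min_le_right _ _).trans (max_le (by linarith) (by linarith))

theorem annR_eq_one {s : ℝ} (hs : s ∈ Icc (1 / 2 : ℝ) 1) : annR s 1 = s := by
  unfold annR
  rw [max_eq_right (by linarith [hs.1]), min_eq_right (by linarith [hs.2])]
  ring

theorem annR_eq_neg_one {s : ℝ} (hs : s ∈ Icc (1 / 2 : ℝ) 1) : annR s (-1) = -s := by
  unfold annR
  rw [max_eq_left (by linarith [hs.2]), min_eq_left (by linarith [hs.1])]
  ring

theorem abs_annI_le {s u : ℝ} (hs : s ∈ Icc (1 / 2 : ℝ) 1) (hu : |u| ≤ s) : |annI s u| ≤ 1 := by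
  unfold annI
  rw [abs_le] at hu ⊢
  refine ⟨le_max_of_le_left (by linarith), ?_⟩
  exact max_le (by linarith [hs.2]) ((min_le_right _ _).trans (by linarith))

theorem annI_eq_one {s : ℝ} (hs : s ∈ Icc (1 / 2 : ℝ) 1) : annI s s = 1 := by
  unfold annI
  rw [min_eq_right (by linarith [hs.1]), max_eq_right (by linarith [hs.2])]
  ring

theorem annI_eq_neg_one {s : ℝ} (hs : s ∈ Icc (1 / 2 : ℝ) 1) : annI s (-s) = -1 := by
  unfold annI
  rw [min_eq_left (by linarith [hs.1]), max_eq_left (by linarith [hs.1])]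
  ring

theorem norm_annR {n : ℕ} {s : ℝ} (hs : s ∈ Icc (1 / 2 : ℝ) 1) {v : Fin n → ℝ} (hv : ‖v‖ = 1) :
    ‖fun i => annR s (v i)‖ = s := by
  have hi : ∀ i, |v i| ≤ 1 := fun i => hv ▸ norm_le_pi_norm v i
  apply le_antisymm
  · rw [pi_norm_le_iff_of_nonneg (by linarith [hs.1])]
    exact fun i => abs_annR_le hs.1 (hi i)
  · obtain ⟨i, hi'⟩ : ∃ i, |v i| = 1 := by
      by_contra h
      push Not at h
      have : ‖v‖ < 1 := by
        rw [pi_norm_lt_iff one_pos]
        exact fun i => lt_of_le_of_ne (hi i) (h i)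
      exact absurd hv this.ne
    refine le_trans ?_ (norm_le_pi_norm _ i)
    rw [Real.norm_eq_abs]
    rcases (abs_eq zero_le_one).1 hi' with h | h
    · rw [h, annR_eq_one hs]; exact le_abs_self s
    · rw [h, annR_eq_neg_one hs, abs_neg]; exact le_abs_self s

theorem norm_annI {n : ℕ} {v : Fin n → ℝ} (hs : ‖v‖ ∈ Icc (1 / 2 : ℝ) 1) :
    ‖fun i => annI ‖v‖ (v i)‖ = 1 := by
  have hi : ∀ i, |v i| ≤ ‖v‖ := fun i => norm_le_pi_norm v i
  have hpos : 0 < ‖v‖ := by linarith [hs.1]
  apply le_antisymm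
  · rw [pi_norm_le_iff_of_nonneg zero_le_one]
    exact fun i => abs_annI_le hs (hi i)
  · obtain ⟨i, hi'⟩ : ∃ i, |v i| = ‖v‖ := by
      by_contra h
      push Not at h
      have : ‖v‖ < ‖v‖ := by
        rw [pi_norm_lt_iff hpos]
        exact fun i => lt_of_le_of_ne (hi i) (h i)
      exact absurd this (lt_irrefl _)
    refine le_trans ?_ (norm_le_pi_norm _ i)
    rw [Real.norm_eq_abs]
    rcases (abs_eq hpos.le).1 hi' with h | h
    · rw [h, annI_eq_one hs, abs_one]
    · rw [h, annI_eq_neg_one hs, abs_neg, abs_one]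

/-- the standard annulus is `S × [1/2, 1]` -/
noncomputable def annHomeo (n : ℕ) :
    ConHomeo (sphere (0 : Fin n → ℝ) 1 ×ˢ Icc (1 / 2 : ℝ) 1)
      {x : Fin n → ℝ | ‖x‖ ∈ Icc (1 / 2 : ℝ) 1} where
  toFun := fun p i => annR p.2 (p.1 i)
  invFun := fun x => (fun i => annI ‖x‖ (x i), ‖x‖)
  mapsTo := fun p hp => by
    show ‖fun i => annR p.2 (p.1 i)‖ ∈ Icc (1 / 2 : ℝ) 1
    rw [norm_annR hp.2 (mem_sphere_zero_iff_norm.1 hp.1)]
    exact hp.2
  mapsTo_inv := fun x hx => ⟨mem_sphere_zero_iff_norm.2 (norm_annI hx), hx⟩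
  left_inv := fun p hp => by
    have h := norm_annR hp.2 (mem_sphere_zero_iff_norm.1 hp.1)
    refine Prod.ext ?_ h
    funext i
    show annI ‖fun i => annR p.2 (p.1 i)‖ (annR p.2 (p.1 i)) = p.1 i
    rw [h, annI_annR hp.2.2]
  right_inv := fun x hx => by
    funext i
    exact annR_annI hx.2 (x i)
  cont := by
    refine Continuous.continuousOn ?_
    unfold annR
    fun_prop
  cont_inv := by
    refine Continuous.continuousOn ?_
    unfold annI
    fun_prop
  conical := by
    have hX : ConicalSet (sphere (0 : Fin n → ℝ) 1 ×ˢ Icc (1 / 2 : ℝ) 1) :=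
      (conicalSet_sphere_pi n).prod (conicalSet_Icc _ _)
    intro p hp
    refine conicalWithinAt_pi (hX p hp) fun i => ?_
    have h1 : ConicalOn (fun p : (Fin n → ℝ) × ℝ => p.1 i)
        (sphere (0 : Fin n → ℝ) 1 ×ˢ Icc (1 / 2 : ℝ) 1) :=
      conicalOn_linear ((LinearMap.proj i : (Fin n → ℝ) →ₗ[ℝ] ℝ) ∘ₗ LinearMap.fst ℝ _ _) hX
    have h2 : ConicalOn (fun p : (Fin n → ℝ) × ℝ => 1 - p.2)
        (sphere (0 : Fin n → ℝ) 1 ×ˢ Icc (1 / 2 : ℝ) 1) :=
      (conicalOn_const (1:ℝ) hX).sub (conicalOn_snd hX)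
    have h3 : ConicalOn (fun p : (Fin n → ℝ) × ℝ => p.1 i / 2)
        (sphere (0 : Fin n → ℝ) 1 ×ˢ Icc (1 / 2 : ℝ) 1) := by
      refine (h1.const_smul (1 / 2)).congr fun x _ => ?_
      simp only [smul_eq_mul]; ring
    have h4 := (h1.add h2).rmin (h3.rmax (h1.sub h2) (by fun_prop) (by fun_prop)) (by fun_prop)
      (by fun_prop)
    exact h4 p hp

theorem annHomeo_one {n : ℕ} (v : Fin n → ℝ) : (annHomeo n).toFun (v, 1) = v := by
  funext i
  exact annR_one (v i)

theorem annHomeo_half {n : ℕ} {v : Fin n → ℝ} (hv : ‖v‖ = 1) :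
    (annHomeo n).toFun (v, 1 / 2) = (1 / 2 : ℝ) • v := by
  funext i
  show annR (1 / 2) (v i) = 1 / 2 * v i
  rw [annR_half (hv ▸ norm_le_pi_norm v i)]
  ring

theorem norm_annHomeo {n : ℕ} {p : (Fin n → ℝ) × ℝ}
    (hp : p ∈ sphere (0 : Fin n → ℝ) 1 ×ˢ Icc (1 / 2 : ℝ) 1) :
    ‖(annHomeo n).toFun p‖ = p.2 := norm_annR hp.2 (mem_sphere_zero_iff_norm.1 hp.1)

/-- homothety -/
noncomputable def ConHomeo.smulBall (n : ℕ) :
    ConHomeo (closedBall (0 : Fin n → ℝ) 1) (closedBall (0 : Fin n → ℝ) (1 / 2)) where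
  toFun := fun x => (1 / 2 : ℝ) • x
  invFun := fun x => (2 : ℝ) • x
  mapsTo := fun x hx => by
    rw [mem_closedBall_zero_iff] at hx ⊢
    rw [norm_smul, Real.norm_of_nonneg (by norm_num)]
    linarith
  mapsTo_inv := fun x hx => by
    rw [mem_closedBall_zero_iff] at hx ⊢
    rw [norm_smul, Real.norm_of_nonneg (by norm_num)]
    linarith
  left_inv := fun x _ => by simp
  right_inv := fun x _ => by simp
  cont := by fun_prop
  cont_inv := by fun_prop
  conical := (conicalOn_id (locCone_closedBall_pi n 1).conicalSet).const_smul _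

/-- **Adding a collar** to a conical ball. -/
theorem ConBall.add_collar {n : ℕ} {D β : Set E} (hD : ConBall n D β) {L : Set E}
    (lam : ConHomeo (β ×ˢ Icc (0:ℝ) 1) L) (h0 : ∀ y ∈ β, lam.toFun (y, 0) = y)
    (hLD : L ∩ D ⊆ β) : ConBall n (D ∪ L) (lam.toFun '' (β ×ˢ {1})) := by
  have hβc : IsCompact β := hD.isCompact_bdry
  have hβcon : ConicalSet β := hD.conicalSet_bdry
  have hLc : IsCompact L := lam.isCompact_right (hβc.prod isCompact_Icc)
  have hDc : IsCompact D := hD.isCompact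
  obtain ⟨hβD, φ, hφ⟩ := hD
  have hLβ : ∀ y ∈ β, y ∈ L := fun y hy => by
    have := lam.mapsTo (show (y, (0:ℝ)) ∈ β ×ˢ Icc (0:ℝ) 1 from ⟨hy, le_refl _, zero_le_one⟩)
    rwa [h0 y hy] at this
  -- the map on `D`
  let h₁ : ConHomeo D (closedBall (0 : Fin n → ℝ) (1 / 2)) := φ.trans (ConHomeo.smulBall n)
  -- the map on `L`
  let φβ : ConHomeo β (sphere (0 : Fin n → ℝ) 1) := (φ.restr hβcon hβD).cast rfl hφ
  let h₂ : ConHomeo L {x : Fin n → ℝ | ‖x‖ ∈ Icc (1 / 2 : ℝ) 1} :=
    lam.symm.trans ((φβ.prod (ConHomeo.affIcc zero_lt_one (by norm_num : (1/2:ℝ) < 1))).trans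
      (annHomeo n))
  have hφn : ∀ y ∈ β, ‖φ.toFun y‖ = 1 := fun y hy =>
    mem_sphere_zero_iff_norm.1 (φβ.mapsTo hy)
  have e2 : ∀ y ∈ β, h₂.toFun y = (1 / 2 : ℝ) • φ.toFun y := by
    intro y hy
    have h3 : lam.invFun y = (y, 0) := by
      have := lam.left_inv (show (y, (0:ℝ)) ∈ β ×ˢ Icc (0:ℝ) 1 from ⟨hy, le_refl _, zero_le_one⟩)
      rwa [h0 y hy] at this
    show (annHomeo n).toFun ((φβ.prod (ConHomeo.affIcc zero_lt_one
      (by norm_num : (1/2:ℝ) < 1))).toFun (lam.invFun y)) = _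
    rw [h3]
    show (annHomeo n).toFun (φ.toFun y, (ConHomeo.affIcc zero_lt_one
      (by norm_num : (1/2:ℝ) < 1)).toFun 0) = _
    rw [ConHomeo.affIcc_left, annHomeo_half (hφn y hy)]
  have hclA : IsClosed {x : Fin n → ℝ | ‖x‖ ∈ Icc (1 / 2 : ℝ) 1} := by
    exact (isClosed_Icc (a := (1/2:ℝ)) (b := 1)).preimage continuous_norm
  have hunion : closedBall (0 : Fin n → ℝ) (1 / 2) ∪ {x : Fin n → ℝ | ‖x‖ ∈ Icc (1 / 2 : ℝ) 1} =
      closedBall 0 1 := by
    ext x
    simp only [mem_union, mem_closedBall_zero_iff, mem_ofPred_eq, mem_Icc]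
    constructor
    · rintro (h | h)
      · linarith
      · exact h.2
    · intro h
      rcases le_total ‖x‖ (1 / 2) with h' | h'
      · exact Or.inl h'
      · exact Or.inr ⟨h', h⟩
  have hag : EqOn h₁.toFun h₂.toFun (D ∩ L) := by
    intro y hy
    have hyβ := hLD ⟨hy.2, hy.1⟩
    rw [e2 y hyβ]
    rfl
  have himg : closedBall (0 : Fin n → ℝ) (1 / 2) ∩ {x : Fin n → ℝ | ‖x‖ ∈ Icc (1 / 2 : ℝ) 1} ⊆
      h₁.toFun '' (D ∩ L) := by
    rintro x ⟨hx1, hx2⟩
    rw [mem_closedBall_zero_iff] at hx1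
    have hx : ‖x‖ = 1 / 2 := le_antisymm hx1 hx2.1
    have h2 : (2 : ℝ) • x ∈ sphere (0 : Fin n → ℝ) 1 := by
      rw [mem_sphere_zero_iff_norm, norm_smul, hx, Real.norm_of_nonneg (by norm_num)]
      norm_num
    rw [← hφ] at h2
    obtain ⟨y, hy, hyx⟩ := h2
    refine ⟨y, ⟨hβD hy, hLβ y hy⟩, ?_⟩
    show (1 / 2 : ℝ) • φ.toFun y = x
    rw [hyx, smul_smul]
    norm_num
  let h := (ConHomeo.glue h₁ h₂ hDc.isClosed hLc.isClosed isClosed_closedBall hclA hag himg).cast
    rfl hunion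
  refine ⟨?_, h, ?_⟩
  · rintro _ ⟨p, hp, rfl⟩
    refine Or.inr (lam.mapsTo ⟨hp.1, ?_⟩)
    rw [mem_singleton_iff.1 hp.2]
    exact ⟨zero_le_one, le_refl _⟩
  · have hL : EqOn h.toFun h₂.toFun L := ConHomeo.glue_right h₁ h₂ hDc.isClosed hLc.isClosed
      isClosed_closedBall hclA hag himg
    have key : ∀ y ∈ β, h.toFun (lam.toFun (y, 1)) = φ.toFun y := by
      intro y hy
      have hm : (y, (1:ℝ)) ∈ β ×ˢ Icc (0:ℝ) 1 := ⟨hy, zero_le_one, le_refl _⟩
      rw [hL (lam.mapsTo hm)]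
      show (annHomeo n).toFun ((φβ.prod (ConHomeo.affIcc zero_lt_one
        (by norm_num : (1/2:ℝ) < 1))).toFun (lam.invFun (lam.toFun (y, 1)))) = _
      rw [lam.left_inv hm]
      show (annHomeo n).toFun (φ.toFun y, (ConHomeo.affIcc zero_lt_one
        (by norm_num : (1/2:ℝ) < 1)).toFun 1) = _
      rw [ConHomeo.affIcc_right, annHomeo_one]
    rw [← hφ]
    ext x
    constructor
    · rintro ⟨_, ⟨p, hp, rfl⟩, rfl⟩
      have hp2 : p = (p.1, 1) := Prod.ext rfl hp.2
      rw [hp2, key p.1 hp.1]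
      exact ⟨p.1, hp.1, rfl⟩
    · rintro ⟨y, hy, rfl⟩
      exact ⟨_, ⟨(y, 1), ⟨hy, rfl⟩, rfl⟩, key y hy⟩

end P073
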