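import Vale.Agent.P073.PA260.TwoSided

/-!
# P073, block PA (helper260): CAPS

Disjoint caps over a finite family of nested or disjoint discs `B j` in a surface `F`: the graphs of
functions `l j` with values in `(a, c]`, equal to `c` on the boundary of `B j`.
-/

open Set Metric Topology Filter

namespace P073

variable {E F' G : Type*} [NormedAddCommGroup E] [NormedSpace ℝ E]
  [NormedAddCommGroup F'] [NormedSpace ℝ F'] [NormedAddCommGroup G] [NormedSpace ℝ G]

theorem ConicalOn.finset_sum {ι : Type*} (s : Finset ι) {X : Set E} {b : ι → E → ℝ}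
    (hX : ConicalSet X) (h : ∀ i, ConicalOn (b i) X) :
    ConicalOn (fun x => ∑ i ∈ s, b i x) X := by
  classical
  induction s using Finset.induction_on with
  | empty => simpa using conicalOn_const (0:ℝ) hX
  | insert a s ha ih =>
    refine ((h a).add ih).congr fun x _ => ?_
    simp only
    rw [Finset.sum_insert ha]

/-- **CAPS**: the levels. -/
theorem exists_levels {n : ℕ} {J : Type*} [Finite J] {F : Set E} (hF : ConicalSet F)
    {B β : J → Set E} (hB : ∀ j, ConBall n (B j) (β j)) (hBF : ∀ j, B j ⊆ F)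
    (hne : ∀ j, (β j).Nonempty) (hopen : ∀ j, ∃ U, IsOpen U ∧ U ∩ F = B j \ β j)
    (hnest : ∀ i j, i ≠ j → Disjoint (B i) (B j) ∨ B i ⊆ B j \ β j ∨ B j ⊆ B i \ β i)
    {a c : ℝ} (hac : a < c) :
    ∃ l : J → E → ℝ, (∀ j, ConicalOn (l j) F) ∧ (∀ j, ContinuousOn (l j) F) ∧
      (∀ j, ∀ y ∈ β j, l j y = c) ∧ (∀ j, ∀ y ∈ B j, y ∉ β j → l j y < c) ∧
      (∀ j y, a < l j y ∧ l j y ≤ c) ∧
      ∀ i j, i ≠ j → ∀ y ∈ B i, y ∈ B j → l i y ≠ l j y := by
  classical
  cases nonempty_fintype J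
  choose b hb1 hb2 hb3 hb4 hb5 hb6 using fun j => (hB j).exists_bump hF (hBF j) (hopen j)
  let S : J → Finset J := fun j => Finset.univ.filter fun i => i = j ∨ B i ⊆ B j \ β j
  have hS : ∀ {i j}, i ∈ S j ↔ i = j ∨ B i ⊆ B j \ β j := by
    intro i j; simp [S]
  set N : ℝ := (Fintype.card J : ℝ) with hN
  have hN0 : 0 ≤ N := Nat.cast_nonneg _
  set e : ℝ := (c - a) / (N + 1) with he
  have he0 : 0 < e := div_pos (sub_pos.2 hac) (by linarith)
  have hsum0 : ∀ j y, 0 ≤ ∑ i ∈ S j, b i y := fun j y =>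
    Finset.sum_nonneg fun i _ => (hb3 i y).1
  have hsum1 : ∀ j y, ∑ i ∈ S j, b i y ≤ N := by
    intro j y
    calc ∑ i ∈ S j, b i y ≤ ∑ i ∈ S j, (1:ℝ) := Finset.sum_le_sum fun i _ => (hb3 i y).2
      _ = ((S j).card : ℝ) := by simp
      _ ≤ N := by
          rw [hN]
          exact_mod_cast Finset.card_le_univ (S j)
  have key : ∀ i j, i ≠ j → B i ⊆ B j \ β j → ∀ y ∈ B i,
      c - e * ∑ k ∈ S j, b k y < c - e * ∑ k ∈ S i, b k y := by
    intro i j hij hsub y hy
    have hjS : j ∉ S i := by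
      rw [hS]
      rintro (h | h)
      · exact hij h.symm
      · obtain ⟨z, hz⟩ := hne j
        have h1 := h ((hB j).1 hz)
        exact (hsub h1.1).2 hz
    have hsubS : insert j (S i) ⊆ S j := by
      intro k hk
      rcases Finset.mem_insert.1 hk with rfl | hk
      · rw [hS]; exact Or.inl rfl
      · rw [hS] at hk ⊢
        rcases hk with rfl | hk
        · exact Or.inr hsub
        · exact Or.inr (hk.trans (sdiff_subset.trans hsub))
    have h1 : ∑ k ∈ insert j (S i), b k y ≤ ∑ k ∈ S j, b k y :=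
      Finset.sum_le_sum_of_subset_of_nonneg hsubS fun k _ _ => (hb3 k y).1
    rw [Finset.sum_insert hjS] at h1
    have h2 : 0 < b j y := hb4 j y (hsub hy).1 (hsub hy).2
    have h3 : ∑ k ∈ S i, b k y < ∑ k ∈ S j, b k y := by linarith
    have := mul_lt_mul_of_pos_left h3 he0
    linarith
  refine ⟨fun j y => c - e * ∑ i ∈ S j, b i y, fun j => ?_, fun j => ?_, fun j y hy => ?_,
    fun j y hy hyβ => ?_, fun j y => ⟨?_, ?_⟩, fun i j hij y hi hj => ?_⟩
  · have h1 := ConicalOn.finset_sum (S j) hF hb1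
    exact (conicalOn_const c hF).sub (h1.const_smul e)
  · exact continuousOn_const.sub (continuousOn_const.mul
      (continuousOn_finsetSum _ fun i _ => hb2 i))
  · have : ∑ i ∈ S j, b i y = 0 := by
      refine Finset.sum_eq_zero fun i hi => ?_
      rcases hS.1 hi with rfl | h
      · exact hb6 i y hy
      · exact hb5 i y fun h' => (h h').2 hy
    show c - e * ∑ i ∈ S j, b i y = c
    rw [this, mul_zero, sub_zero]
  · have h1 : b j y ≤ ∑ i ∈ S j, b i y :=
      Finset.single_le_sum (f := fun i => b i y) (fun i _ => (hb3 i y).1) (hS.2 (Or.inl rfl))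
    have h2 := hb4 j y hy hyβ
    have := mul_pos he0 (h2.trans_le h1)
    show c - e * ∑ i ∈ S j, b i y < c
    linarith
  · have h1 := mul_le_mul_of_nonneg_left (hsum1 j y) he0.le
    have h2 : e * N < c - a := by
      rw [he, div_mul_eq_mul_div, div_lt_iff₀ (by linarith)]
      have := sub_pos.2 hac
      nlinarith
    show a < c - e * ∑ i ∈ S j, b i y
    linarith
  · have := mul_nonneg he0.le (hsum0 j y)
    show c - e * ∑ i ∈ S j, b i y ≤ c
    linarith
  · rcases hnest i j hij with h | h | h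
    · exact absurd hj (Set.disjoint_left.1 h hi)
    · exact (key i j hij h y hi).ne'
    · exact (key j i (Ne.symm hij) h y hj).ne

/-- the graph homeomorphism -/
def ConHomeo.graph {B : Set E} {l : E → ℝ} (hB : ConicalSet B) (hl : ConicalOn l B)
    (hc : ContinuousOn l B) : ConHomeo B ((fun y => (y, l y)) '' B) where
  toFun := fun y => (y, l y)
  invFun := fun p => p.1
  mapsTo := mapsTo_image _ _
  mapsTo_inv := by
    rintro _ ⟨y, hy, rfl⟩
    exact hy
  left_inv := fun y _ => rfl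
  right_inv := by
    rintro _ ⟨y, hy, rfl⟩
    rfl
  cont := continuousOn_id.prodMk hc
  cont_inv := continuousOn_fst
  conical := (conicalOn_id hB).prodMk hl

theorem ConBall.graph {n : ℕ} {B β : Set E} (h : ConBall n B β) {l : E → ℝ}
    (hl : ConicalOn l B) (hc : ContinuousOn l B) :
    ConBall n ((fun y => (y, l y)) '' B) ((fun y => (y, l y)) '' β) := by
  have := h.image (ConHomeo.graph h.conicalSet hl hc) (Subset.refl B)
  exact this

/-- **CAPS**: the discs. `κ` is a bicollar of `F` (or any conical embedding of a set which contains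
`F × (a, c]`). -/
theorem exists_caps {n : ℕ} {J : Type*} [Finite J] {F : Set E} (hF : ConicalSet F)
    {B β : J → Set E} (hB : ∀ j, ConBall n (B j) (β j)) (hBF : ∀ j, B j ⊆ F)
    (hne : ∀ j, (β j).Nonempty) (hopen : ∀ j, ∃ U, IsOpen U ∧ U ∩ F = B j \ β j)
    (hnest : ∀ i j, i ≠ j → Disjoint (B i) (B j) ∨ B i ⊆ B j \ β j ∨ B j ⊆ B i \ β i)
    {a c : ℝ} (hac : a < c) {X : Set (E × ℝ)} {N : Set G} (κ : ConHomeo X N)
    (hX : F ×ˢ Ioc a c ⊆ X) :
    ∃ C : J → Set G, (∀ j, ConBall n (C j) (κ.toFun '' (β j ×ˢ {c}))) ∧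
      (∀ j, C j ⊆ κ.toFun '' (B j ×ˢ Ioc a c)) ∧
      (∀ j, ∀ y t, (y, t) ∈ X → κ.toFun (y, t) ∈ C j → t = c → y ∈ β j) ∧
      ∀ i j, i ≠ j → Disjoint (C i) (C j) := by
  obtain ⟨l, h1, h2, h3, h4, h5, h6⟩ := exists_levels hF hB hBF hne hopen hnest hac
  have hgX : ∀ j, ∀ y ∈ B j, (y, l j y) ∈ X := fun j y hy => hX ⟨hBF j hy, (h5 j y).1, (h5 j y).2⟩
  have hsub : ∀ j, (fun y => (y, l j y)) '' B j ⊆ X := by
    rintro j _ ⟨y, hy, rfl⟩
    exact hgX j y hy
  refine ⟨fun j => κ.toFun '' ((fun y => (y, l j y)) '' B j), fun j => ?_, fun j => ?_,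
    fun j y t hyt hmem htc => ?_, fun i j hij => ?_⟩
  · have hg := (hB j).graph ((h1 j).mono (hB j).conicalSet (hBF j)) ((h2 j).mono (hBF j))
    have := hg.image κ (hsub j)
    have e : (fun y => (y, l j y)) '' β j = β j ×ˢ {c} := by
      ext ⟨y, t⟩
      simp only [mem_image, mem_prod, mem_singleton_iff, Prod.mk.injEq]
      constructor
      · rintro ⟨z, hz, rfl, rfl⟩
        exact ⟨hz, h3 j z hz⟩
      · rintro ⟨hy, rfl⟩
        exact ⟨y, hy, rfl, h3 j y hy⟩
    rwa [e] at this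
  · rintro _ ⟨_, ⟨y, hy, rfl⟩, rfl⟩
    exact ⟨(y, l j y), ⟨hy, (h5 j y).1, (h5 j y).2⟩, rfl⟩
  · obtain ⟨_, ⟨z, hz, rfl⟩, he⟩ := hmem
    have := κ.injOn (hgX j z hz) hyt he
    rw [Prod.mk.injEq] at this
    obtain ⟨rfl, h7⟩ := this
    by_contra hn
    have := h4 j z hz hn
    rw [h7, htc] at this
    exact lt_irrefl _ this
  · rw [Set.disjoint_left]
    rintro _ ⟨_, ⟨y, hy, rfl⟩, rfl⟩ ⟨_, ⟨z, hz, rfl⟩, he⟩
    have := κ.injOn (hgX j z hz) (hgX i y hy) he
    rw [Prod.mk.injEq] at this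
    obtain ⟨rfl, h7⟩ := this
    exact h6 i j hij z hy hz h7.symm

/-- **Replacing the holes by caps.** `D₁ = P ∪ ⋃ E j` is a ball with boundary `c₁ ⊆ P`, the
cells `E j` are attached to `P` along `e j`; `g` embeds `P`, and the cells `C j` are attached to
`g(P)` along `g(e j)`. -/
theorem ConBall.replace_cells {n : ℕ} {J : Type*} [Finite J] {P : Set E} {P' : Set G}
    (g : ConHomeo P P') (hP : IsClosed P) (hP' : IsClosed P') {e' E' : J → Set E}
    {C : J → Set G} (hE : ∀ j, ConBall n (E' j) (e' j))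
    (hC : ∀ j, ConBall n (C j) (g.toFun '' e' j)) (hEP : ∀ j, E' j ∩ P = e' j)
    (hCP : ∀ j, C j ∩ P' = g.toFun '' e' j) (hEd : ∀ i j, i ≠ j → E' i ∩ E' j ⊆ P)
    (hCd : ∀ i j, i ≠ j → C i ∩ C j ⊆ P') {c₁ : Set E} (hc₁ : c₁ ⊆ P) {m : ℕ}
    (hD : ConBall m (P ∪ ⋃ j, E' j) c₁) :
    ConBall m (P' ∪ ⋃ j, C j) (g.toFun '' c₁) ∧
      ∃ Φ : ConHomeo (P ∪ ⋃ j, E' j) (P' ∪ ⋃ j, C j), EqOn Φ.toFun g.toFun P ∧
        ∀ j, Φ.toFun '' E' j = C j := by
  obtain ⟨Φ, hΦ1, hΦ2⟩ := ConHomeo.exists_extend_cells g (fun _ => n) E' e' C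
    (fun j => g.toFun '' e' j) hE hC (fun _ => rfl) hEP hCP hEd hCd
    (fun z _ hz => by rwa [hP.closure_eq] at hz) (fun z _ hz => by rwa [hP'.closure_eq] at hz)
    (fun z _ => ⟨univ, Filter.univ_mem, toFinite _⟩)
    (fun z _ => ⟨univ, Filter.univ_mem, toFinite _⟩)
  refine ⟨?_, Φ, hΦ1, hΦ2⟩
  have := hD.image Φ (Subset.refl _)
  rw [Φ.image_eq, (hΦ1.mono hc₁).image_eq] at this
  exact this

end P073
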