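import Vale.Agent.P073.PA260.Ring
import Vale.Agent.P073.TR.Level2

/-!
# P073, block PA (helper260): DISC, part A

Bicollared surfaces, generic levels, the component of the centre.
-/

open Set Metric Topology Filter

namespace P073

variable {E G : Type*} [NormedAddCommGroup E] [NormedSpace ℝ E]
  [NormedAddCommGroup G] [NormedSpace ℝ G]

/-- A bicollared surface `κ (F × {0})` in `Ω` and its two sides. -/
structure Bicollar (Ω : Set G) (F : Set E) (N Out In : Set G)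
    (κ : ConHomeo (F ×ˢ Icc (-1:ℝ) 1) N) : Prop where
  closed : ∀ x ∈ Ω, x ∈ closure N → x ∈ N
  isOpen : IsOpen (κ.toFun '' (F ×ˢ Ioo (-1) 1))
  out_open : IsOpen Out
  in_open : IsOpen In
  disj : Disjoint Out In
  cover : ∀ x ∈ Ω, x ∈ Out ∨ x ∈ In ∨ x ∈ κ.toFun '' (F ×ˢ {0})
  pos : ∀ y ∈ F, ∀ t ∈ Ioc (0:ℝ) 1, κ.toFun (y, t) ∈ Out
  neg : ∀ y ∈ F, ∀ t ∈ Ico (-1:ℝ) 0, κ.toFun (y, t) ∈ In
  zero : ∀ y ∈ F, κ.toFun (y, 0) ∉ Out ∧ κ.toFun (y, 0) ∉ In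

namespace Bicollar

variable {Ω : Set G} {F : Set E} {N Out In : Set G} {κ : ConHomeo (F ×ˢ Icc (-1:ℝ) 1) N}

theorem level_closed (H : Bicollar Ω F N Out In κ) {I : Set ℝ} (hI : IsClosed I)
    (hI1 : I ⊆ Icc (-1) 1) {x : G} (hx : x ∈ Ω) (hcl : x ∈ closure (κ.toFun '' (F ×ˢ I))) :
    x ∈ κ.toFun '' (F ×ˢ I) := by
  have hsub : κ.toFun '' (F ×ˢ I) ⊆ N := by
    rintro _ ⟨p, hp, rfl⟩
    exact κ.mapsTo ⟨hp.1, hI1 hp.2⟩
  have hxN : x ∈ N := H.closed x hx (closure_mono hsub hcl)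
  have hc : ContinuousWithinAt (fun z => (κ.invFun z).2) (κ.toFun '' (F ×ˢ I)) x :=
    (continuous_snd.continuousAt.comp_continuousWithinAt ((κ.cont_inv x hxN).mono hsub))
  have h1 := hc.mem_closure_image hcl
  have h2 : (fun z => (κ.invFun z).2) '' (κ.toFun '' (F ×ˢ I)) ⊆ I := by
    rintro _ ⟨_, ⟨p, hp, rfl⟩, rfl⟩
    show (κ.invFun (κ.toFun p)).2 ∈ I
    rw [κ.left_inv (show p ∈ F ×ˢ Icc (-1:ℝ) 1 from ⟨hp.1, hI1 hp.2⟩)]
    exact hp.2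
  have h3 : (κ.invFun x).2 ∈ I := by
    have := closure_mono h2 h1
    rwa [hI.closure_eq] at this
  exact ⟨κ.invFun x, ⟨(κ.mapsTo_inv hxN).1, h3⟩, κ.right_inv hxN⟩

theorem isOpen_level (H : Bicollar Ω F N Out In κ) {c : ℝ} (hc : c ≤ 1) :
    IsOpen (κ.toFun '' (F ×ˢ Ioo (-1) c)) := by
  have hsub : κ.toFun '' (F ×ˢ Ioo (-1) 1) ⊆ N := by
    rintro _ ⟨p, hp, rfl⟩
    exact κ.mapsTo ⟨hp.1, Ioo_subset_Icc_self hp.2⟩
  have h1 : ContinuousOn (fun z => (κ.invFun z).2) (κ.toFun '' (F ×ˢ Ioo (-1) 1)) :=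
    continuous_snd.comp_continuousOn (κ.cont_inv.mono hsub)
  have h2 := h1.isOpen_inter_preimage H.isOpen (isOpen_Iio (a := c))
  convert h2 using 1
  ext x
  constructor
  · rintro ⟨p, hp, rfl⟩
    have hp' : p ∈ F ×ˢ Icc (-1:ℝ) 1 := ⟨hp.1, hp.2.1.le, hp.2.2.le.trans hc⟩
    refine ⟨⟨p, ⟨hp.1, hp.2.1, hp.2.2.trans_le hc⟩, rfl⟩, ?_⟩
    show (κ.invFun (κ.toFun p)).2 < c
    rw [κ.left_inv hp']
    exact hp.2.2
  · rintro ⟨⟨p, hp, rfl⟩, h⟩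
    have hp' : p ∈ F ×ˢ Icc (-1:ℝ) 1 := ⟨hp.1, Ioo_subset_Icc_self hp.2⟩
    have h' : (κ.invFun (κ.toFun p)).2 < c := h
    rw [κ.left_inv hp'] at h'
    exact ⟨p, ⟨hp.1, hp.2.1, h'⟩, rfl⟩

theorem isOpen_pos (H : Bicollar Ω F N Out In κ) : IsOpen (κ.toFun '' (F ×ˢ Ioo 0 1)) := by
  have e : κ.toFun '' (F ×ˢ Ioo 0 1) = Out ∩ κ.toFun '' (F ×ˢ Ioo (-1) 1) := by
    ext x
    constructor
    · rintro ⟨p, hp, rfl⟩
      exact ⟨H.pos p.1 hp.1 p.2 ⟨hp.2.1, hp.2.2.le⟩,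
        ⟨p, ⟨hp.1, by linarith [hp.2.1], hp.2.2⟩, rfl⟩⟩
    · rintro ⟨h1, ⟨p, hp, rfl⟩⟩
      refine ⟨p, ⟨hp.1, ?_, hp.2.2⟩, rfl⟩
      rcases lt_trichotomy p.2 0 with h | h | h
      · exact absurd (H.neg p.1 hp.1 p.2 ⟨hp.2.1.le, h⟩)
          (Set.disjoint_left.1 H.disj h1)
      · have h2 : p = (p.1, 0) := Prod.ext rfl h
        rw [h2] at h1
        exact absurd h1 (H.zero p.1 hp.1).1
      · exact h
  rw [e]
  exact H.out_open.inter H.isOpen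

variable {Q₀ : Set (ℝ × ℝ)} {D0 : Set G}

/-- **Generic level.** -/
theorem exists_level (H : Bicollar Ω F N Out In κ) (hQ : AmbDisc Q₀) (g : ConHomeo Q₀ D0)
    (hD0 : D0 ⊆ Ω) (hgQ : ∀ y ∈ frontier Q₀, g.toFun y ∈ In) :
    ∃ c ∈ Ioo (0:ℝ) 1, ∃ (J : Type) (_ : Finite J) (D : J → Set (ℝ × ℝ)),
      (∀ j, AmbDisc (D j)) ∧ (∀ i j, i ≠ j → Disjoint (frontier (D i)) (frontier (D j))) ∧
      (∀ j, D j ⊆ interior Q₀) ∧
      (⋃ j, frontier (D j)) = {y | y ∈ Q₀ ∧ g.toFun y ∈ κ.toFun '' (F ×ˢ {c})} := by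
  set U : Set (ℝ × ℝ) := interior Q₀ ∩ g.toFun ⁻¹' (κ.toFun '' (F ×ˢ Ioo 0 1)) with hU
  have hUo : IsOpen U :=
    (g.cont.mono interior_subset).isOpen_inter_preimage isOpen_interior H.isOpen_pos
  have hUQ : U ⊆ Q₀ := inter_subset_left.trans interior_subset
  have hUN : MapsTo g.toFun U N := by
    rintro y ⟨_, ⟨p, hp, he⟩⟩
    rw [← he]
    exact κ.mapsTo ⟨hp.1, by linarith [hp.2.1], hp.2.2.le⟩
  have h1 : ConicalOn g.toFun U := g.conical.mono (IsOpen.conicalSet hUo) hUQ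
  have h2 : ConicalOn (κ.invFun ∘ g.toFun) U := κ.conical_inv.comp h1 hUN (g.cont.mono hUQ)
  have h3 : ConicalOn (fun y => (κ.invFun (g.toFun y)).2) U :=
    h2.linear_comp (LinearMap.snd ℝ E ℝ)
  have h4 : ContinuousOn (fun y => (κ.invFun (g.toFun y)).2) U :=
    continuous_snd.comp_continuousOn (κ.cont_inv.comp (g.cont.mono hUQ) hUN)
  obtain ⟨C, hC, hgen⟩ := TR.exists_generic_circles (E := ℝ × ℝ) (by simp) hUo h3 h4
  obtain ⟨c, hcC, hc⟩ := (hC.dense_compl ℝ).exists_mem_open isOpen_Ioo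
    (nonempty_Ioo.2 (zero_lt_one (α := ℝ)))
  have hset : {x | x ∈ U ∧ (κ.invFun (g.toFun x)).2 = c} =
      {y | y ∈ Q₀ ∧ g.toFun y ∈ κ.toFun '' (F ×ˢ {c})} := by
    ext y
    constructor
    · rintro ⟨hy, hyc⟩
      refine ⟨hUQ hy, κ.invFun (g.toFun y), ⟨(κ.mapsTo_inv (hUN hy)).1, hyc⟩,
        κ.right_inv (hUN hy)⟩
    · rintro ⟨hyQ, ⟨p, hp, he⟩⟩
      have hpc : p.2 = c := hp.2
      have hp' : p ∈ F ×ˢ Icc (-1:ℝ) 1 := ⟨hp.1, by rw [hpc]; constructor <;> linarith [hc.1, hc.2]⟩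
      refine ⟨⟨?_, ⟨p, ⟨hp.1, by rw [hpc]; exact hc⟩, he⟩⟩, ?_⟩
      · by_contra hn
        have hfr : y ∈ frontier Q₀ := by
          rw [hQ.isClosed.frontier_eq]; exact ⟨hyQ, hn⟩
        have h5 := hgQ y hfr
        have h6 := H.pos p.1 hp.1 p.2 (by rw [hpc]; exact ⟨hc.1, hc.2.le⟩)
        rw [← he] at h5
        exact Set.disjoint_left.1 H.disj h6 h5
      · show (κ.invFun (g.toFun y)).2 = c
        rw [← he, κ.left_inv hp', hpc]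
  have hcomp : IsCompact {x | x ∈ U ∧ (κ.invFun (g.toFun x)).2 = c} := by
    rw [hset]
    refine hQ.isCompact.of_isClosed_subset (isClosed_of_closure_subset ?_) fun y hy => hy.1
    intro y hy
    have hyQ : y ∈ Q₀ := by
      have := closure_mono (show {y | y ∈ Q₀ ∧ g.toFun y ∈ κ.toFun '' (F ×ˢ {c})} ⊆ Q₀ from
        fun y hy => hy.1) hy
      rwa [hQ.isClosed.closure_eq] at this
    refine ⟨hyQ, H.level_closed isClosed_singleton ?_ (hD0 (g.mapsTo hyQ)) ?_⟩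
    · rintro t rfl; constructor <;> linarith [hc.1, hc.2]
    · have h5 : ContinuousWithinAt g.toFun {y | y ∈ Q₀ ∧ g.toFun y ∈ κ.toFun '' (F ×ˢ {c})} y :=
        (g.cont y hyQ).mono fun y hy => hy.1
      refine closure_mono ?_ (h5.mem_closure_image hy)
      rintro _ ⟨z, hz, rfl⟩
      exact hz.2
  obtain ⟨J, hJ, Cs, hCs, hd, hcirc⟩ := hgen c hcC hcomp
  rw [hset] at hCs
  choose D hD hDf using fun j => SCH.schoenflies (H339.conSphere_iff.1 (hcirc j))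
  refine ⟨c, hc, J, hJ, D, hD, fun i j hij => by rw [hDf, hDf]; exact hd i j hij, fun j => ?_,
    by rw [iUnion_congr hDf, hCs]⟩
  refine SCH.AmbDisc.subset_interior_of_frontier (hD j) hQ ?_
  intro y hy
  rw [hDf] at hy
  have h5 : y ∈ {x | x ∈ U ∧ (κ.invFun (g.toFun x)).2 = c} := by
    rw [hset, ← hCs]; exact mem_iUnion.2 ⟨j, hy⟩
  exact h5.1.1

/-- **The component of the centre.** -/
theorem exists_component (H : Bicollar Ω F N Out In κ) (hQ : AmbDisc Q₀) (g : ConHomeo Q₀ D0)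
    (hD0 : D0 ⊆ Ω) (hgQ : ∀ y ∈ frontier Q₀, g.toFun y ∈ In) {c : ℝ} (hc : c ∈ Ioo (0:ℝ) 1)
    {J : Type} [Finite J] {D : J → Set (ℝ × ℝ)} (hD : ∀ j, AmbDisc (D j))
    (hdis : ∀ i j, i ≠ j → Disjoint (frontier (D i)) (frontier (D j)))
    (hDQ : ∀ j, D j ⊆ interior Q₀)
    (hlev : (⋃ j, frontier (D j)) = {y | y ∈ Q₀ ∧ g.toFun y ∈ κ.toFun '' (F ×ˢ {c})})
    {m : ℝ × ℝ} (hm : m ∈ interior Q₀) (hgm : g.toFun m ∈ Out) (hgN : g.toFun m ∉ N) :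
    ∃ (i₀ : J) (J' : Set J), i₀ ∉ J' ∧ m ∈ interior (D i₀) ∧
      (∀ j ∈ J', D j ⊆ interior (D i₀) ∧ m ∉ D j) ∧
      (∀ j ∈ J', ∀ k ∈ J', j ≠ k → Disjoint (D j) (D k)) ∧
      (∀ y ∈ interior (D i₀), (∀ j ∈ J', y ∉ D j) → g.toFun y ∈ Out ∧
        g.toFun y ∉ κ.toFun '' (F ×ˢ Icc 0 c)) ∧
      ∀ K ⊆ Q₀, IsPreconnected K → m ∈ K → (∀ y ∈ K, g.toFun y ∉ N) →
        K ⊆ interior (D i₀) ∧ ∀ j ∈ J', Disjoint K (D j) := by
  have hlevN : ∀ j, ∀ y ∈ frontier (D j), g.toFun y ∈ κ.toFun '' (F ×ˢ {c}) := by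
    intro j y hy
    have : y ∈ {y | y ∈ Q₀ ∧ g.toFun y ∈ κ.toFun '' (F ×ˢ {c})} := by
      rw [← hlev]; exact mem_iUnion.2 ⟨j, hy⟩
    exact this.2
  have hcN : κ.toFun '' (F ×ˢ {c}) ⊆ N := by
    rintro _ ⟨p, hp, rfl⟩
    refine κ.mapsTo ⟨hp.1, ?_⟩
    rw [mem_singleton_iff.1 hp.2]
    constructor <;> linarith [hc.1, hc.2]
  obtain ⟨D₁, J', hD₁, hmD₁, hJ1, hJ2, hWo, hWc, hJ3, -⟩ := SCH.exists_component hQ hD hdis hDQ hm
    (fun i hi => hgN (hcN (hlevN i m hi)))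
  set W := interior D₁ \ ⋃ j ∈ J', D j with hW
  have hD₁Q : D₁ ⊆ Q₀ := by
    rcases hD₁ with h | ⟨i, h, -⟩
    · rw [h]
    · rw [h]; exact (hDQ i).trans interior_subset
  have hD₁a : AmbDisc D₁ := by
    rcases hD₁ with h | ⟨i, h, -⟩
    · rw [h]; exact hQ
    · rw [h]; exact hD i
  have hWQ : W ⊆ Q₀ := fun y hy => hD₁Q (interior_subset hy.1)
  have hmW : m ∈ W := ⟨hmD₁, fun h => by
    obtain ⟨j, hj, hmj⟩ := mem_iUnion₂.1 h
    exact (hJ1 j hj).2 hmj⟩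
  have hWlev : ∀ y ∈ W, g.toFun y ∉ κ.toFun '' (F ×ˢ {c}) := by
    intro y hy hgy
    have : y ∈ ⋃ j, frontier (D j) := by rw [hlev]; exact ⟨hWQ hy, hgy⟩
    obtain ⟨i, hi⟩ := mem_iUnion.1 this
    by_cases hiJ : i ∈ J'
    · exact hy.2 (mem_iUnion₂.2 ⟨i, hiJ, (hD i).isClosed.frontier_subset hi⟩)
    · by_cases hiD : D i = D₁
      · rw [hiD] at hi
        exact hi.2 hy.1
      · refine Set.disjoint_left.1 (hJ3 i hiJ hiD) hi ⟨interior_subset hy.1, fun h => ?_⟩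
        obtain ⟨j, hj, hyj⟩ := mem_iUnion₂.1 h
        exact hy.2 (mem_iUnion₂.2 ⟨j, hj, interior_subset hyj⟩)
  -- the two sides of the level `c`
  have hA1 : IsOpen (Out ∩ (closure (κ.toFun '' (F ×ˢ Icc 0 c)))ᶜ) :=
    H.out_open.inter isClosed_closure.isOpen_compl
  have hA2 : IsOpen (In ∪ κ.toFun '' (F ×ˢ Ioo (-1) c)) := H.in_open.union (H.isOpen_level hc.2.le)
  have hI : Icc 0 c ⊆ Icc (-1:ℝ) 1 := Icc_subset_Icc (by norm_num) hc.2.le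
  have hAd : Disjoint (Out ∩ (closure (κ.toFun '' (F ×ˢ Icc 0 c)))ᶜ)
      (In ∪ κ.toFun '' (F ×ˢ Ioo (-1) c)) := by
    rw [Set.disjoint_left]
    rintro x ⟨hx1, hx2⟩ (hx3 | ⟨p, hp, rfl⟩)
    · exact Set.disjoint_left.1 H.disj hx1 hx3
    · rcases lt_trichotomy p.2 0 with h | h | h
      · exact Set.disjoint_left.1 H.disj hx1 (H.neg p.1 hp.1 p.2 ⟨hp.2.1.le, h⟩)
      · have h2 : p = (p.1, 0) := Prod.ext rfl h
        rw [h2] at hx1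
        exact (H.zero p.1 hp.1).1 hx1
      · exact hx2 (subset_closure ⟨p, ⟨hp.1, h.le, hp.2.2.le⟩, rfl⟩)
  have hcov : g.toFun '' W ⊆ (Out ∩ (closure (κ.toFun '' (F ×ˢ Icc 0 c)))ᶜ) ∪
      (In ∪ κ.toFun '' (F ×ˢ Ioo (-1) c)) := by
    rintro _ ⟨y, hy, rfl⟩
    have hΩ : g.toFun y ∈ Ω := hD0 (g.mapsTo (hWQ hy))
    rcases H.cover _ hΩ with h | h | h
    · by_cases hcl : g.toFun y ∈ closure (κ.toFun '' (F ×ˢ Icc 0 c))
      · obtain ⟨p, hp, he⟩ := H.level_closed isClosed_Icc hI hΩ hcl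
        refine Or.inr (Or.inr ⟨p, ⟨hp.1, by linarith [hp.2.1], ?_⟩, he⟩)
        refine lt_of_le_of_ne hp.2.2 fun h5 => hWlev y hy ⟨p, ⟨hp.1, h5⟩, he⟩
      · exact Or.inl ⟨h, hcl⟩
    · exact Or.inr (Or.inl h)
    · obtain ⟨p, hp, he⟩ := h
      refine Or.inr (Or.inr ⟨p, ⟨hp.1, ?_⟩, he⟩)
      rw [mem_singleton_iff.1 hp.2]
      exact ⟨by norm_num, hc.1⟩
  have hclN : closure (κ.toFun '' (F ×ˢ Icc 0 c)) ∩ Ω ⊆ N := by
    rintro x ⟨hx, hxΩ⟩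
    obtain ⟨p, hp, rfl⟩ := H.level_closed isClosed_Icc hI hxΩ hx
    exact κ.mapsTo ⟨hp.1, hI hp.2⟩
  have hmQ : m ∈ Q₀ := interior_subset hm
  have hWout : g.toFun '' W ⊆ Out ∩ (closure (κ.toFun '' (F ×ˢ Icc 0 c)))ᶜ := by
    refine (hWc.image _ (g.cont.mono hWQ)).subset_left_of_subset_union hA1 hA2 hAd hcov
      ⟨g.toFun m, ⟨m, hmW, rfl⟩, hgm, fun h => hgN (hclN ⟨h, hD0 (g.mapsTo hmQ)⟩)⟩
  -- the outer disc is not `Q₀`
  obtain ⟨i₀, hi₀, hi₀J⟩ : ∃ i, D₁ = D i ∧ i ∉ J' := by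
    rcases hD₁ with h | h
    · exfalso
      obtain ⟨x, hx⟩ := SCH.AmbDisc.frontier_nonempty hQ
      have hxQ : x ∈ Q₀ := hQ.isClosed.frontier_subset hx
      have h1 : x ∈ closure (interior Q₀) := by rw [hQ.closure_interior]; exact hxQ
      have h2 : ∀ᶠ y in 𝓝[Q₀] x, g.toFun y ∈ In :=
        (g.cont x hxQ).eventually (H.in_open.mem_nhds (hgQ x hx))
      have h3 : IsClosed (⋃ j ∈ J', D j) :=
        (toFinite J').isClosed_biUnion fun j _ => (hD j).isClosed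
      have h4 : (⋃ j ∈ J', D j)ᶜ ∈ 𝓝 x := h3.isOpen_compl.mem_nhds fun h5 => by
        obtain ⟨j, _, hxj⟩ := mem_iUnion₂.1 h5
        exact hx.2 (hDQ j hxj)
      rw [eventually_nhdsWithin_iff] at h2
      obtain ⟨y, hy1, hy2⟩ := mem_closure_iff_nhds.1 h1 _ (Filter.inter_mem h2 h4)
      have hyW : y ∈ W := ⟨by rw [h]; exact hy2, hy1.2⟩
      exact Set.disjoint_left.1 H.disj (hWout ⟨y, hyW, rfl⟩).1 (hy1.1 (hWQ hyW))
    · exact h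
  subst hi₀
  refine ⟨i₀, J', hi₀J, hmD₁, hJ1, hJ2, fun y hy hyJ => ?_, fun K hKQ hK hmK hKN => ?_⟩
  · have hyW : y ∈ W := ⟨hy, fun h => by
      obtain ⟨j, hj, hyj⟩ := mem_iUnion₂.1 h
      exact hyJ j hj hyj⟩
    have h1 := hWout ⟨y, hyW, rfl⟩
    exact ⟨h1.1, fun h => h1.2 (subset_closure h)⟩
  · have hKW : K ⊆ W := by
      refine hK.subset_left_of_subset_union hWo (isClosed_closure (s := W)).isOpen_compl
        (disjoint_compl_right.mono_left subset_closure) ?_ ⟨m, hmK, hmW⟩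
      intro y hy
      by_contra hn
      rw [mem_union, not_or, mem_compl_iff, not_not] at hn
      obtain ⟨hyW, hycl⟩ := hn
      have hyD : y ∈ D i₀ := by
        have := closure_mono (show W ⊆ D i₀ from fun z hz => interior_subset hz.1) hycl
        rwa [(hD i₀).isClosed.closure_eq] at this
      have hcirc : ∃ j, y ∈ frontier (D j) := by
        by_cases hyi : y ∈ interior (D i₀)
        · have : y ∈ ⋃ j ∈ J', D j := by
            by_contra h; exact hyW ⟨hyi, h⟩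
          obtain ⟨j, hj, hyj⟩ := mem_iUnion₂.1 this
          refine ⟨j, ?_⟩
          rw [(hD j).isClosed.frontier_eq]
          refine ⟨hyj, fun h => ?_⟩
          obtain ⟨z, hz1, hz2⟩ := mem_closure_iff_nhds.1 hycl _ (isOpen_interior.mem_nhds h)
          exact hz2.2 (mem_iUnion₂.2 ⟨j, hj, interior_subset hz1⟩)
        · refine ⟨i₀, ?_⟩
          rw [(hD i₀).isClosed.frontier_eq]
          exact ⟨hyD, hyi⟩
      obtain ⟨j, hj⟩ := hcirc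
      exact hKN y hy (hcN (hlevN j y hj))
    refine ⟨fun y hy => (hKW hy).1, fun j hj => ?_⟩
    rw [Set.disjoint_left]
    exact fun y hy hyj => (hKW hy).2 (mem_iUnion₂.2 ⟨j, hj, hyj⟩)

end Bicollar

end P073
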