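import Vale.Agent.P073.PA260.DiscA

/-!
# P073, block PA (helper260): DISC, part B

The chart of the annulus, the planar copies of the circles, the leg with a ring.
-/

open Set Metric Topology Filter

namespace P073

variable {E G H : Type*} [NormedAddCommGroup E] [NormedSpace ℝ E]
  [NormedAddCommGroup G] [NormedSpace ℝ G] [NormedAddCommGroup H] [NormedSpace ℝ H]

/-! ### LEG with a ring -/

/-- **LEG with a ring.** As `exists_leg`, the first horizontal piece being the image of a ring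
`R'` which together with a ball `E'` fills a ball `K`. -/
theorem exists_leg_ring {n : ℕ} {X : Set (E × ℝ)} {N : Set G} (κ : ConHomeo X N)
    {F ζ c c' R₁ R₂ : Set E} {s₀ s₁ s₂ s₃ : ℝ}
    (h01 : s₀ < s₁) (h12 : s₁ < s₂) (h23 : s₂ < s₃)
    (hX : F ×ˢ Icc s₀ s₃ ⊆ X) {E' γ' R' K bK : Set H}
    (hE' : ConBall n E' γ') (hK : ConBall n K bK) (hKER : E' ∪ R' = K) (hER : E' ∩ R' ⊆ γ')
    (hγR : γ' ⊆ R') (hR : IsCompact R') (hKR : bK ⊆ R') (α : ConHomeo R' R₁)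
    (hcdef : α.toFun '' γ' = c) (hc'def : α.toFun '' bK = c')
    (ρ₂ : ConHomeo (c' ×ˢ Icc (0:ℝ) 1) R₂)
    (hρ₂ : ∀ y ∈ c', ρ₂.toFun (y, 0) = y)
    (hρ₂' : ρ₂.toFun '' (c' ×ˢ {1}) = ζ) (hR₁ : R₁ ⊆ F) (hR₂ : R₂ ⊆ F)
    {D₁ : Set G} (hD₁ : ConBall n D₁ (κ.toFun '' (c ×ˢ {s₃})))
    (hlow : ∀ y ∈ F, ∀ t ∈ Icc s₀ s₂, κ.toFun (y, t) ∉ D₁)
    (hside : ∀ y ∈ c, ∀ t ∈ Icc s₂ s₃, κ.toFun (y, t) ∈ D₁ → t = s₃) :
    ∃ D, ConBall n D (κ.toFun '' (ζ ×ˢ {s₀})) ∧ D₁ ⊆ D ∧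
      D ⊆ D₁ ∪ κ.toFun '' ((R₁ ∪ R₂) ×ˢ Icc s₀ s₃) ∧
      ∀ y ∈ F, κ.toFun (y, s₀) ∈ D → y ∈ ζ := by
  have hc : ConicalSet c := hcdef ▸ α.conicalSet_image hE'.conicalSet_bdry hγR
  have hc' : ConicalSet c' := hc'def ▸ α.conicalSet_image hK.conicalSet_bdry hKR
  have hcR : c ⊆ R₁ := by
    rw [← hcdef]
    rintro _ ⟨x, hx, rfl⟩; exact α.mapsTo (hγR hx)
  have hc'R : c' ⊆ R₁ := by
    rw [← hc'def]
    rintro _ ⟨x, hx, rfl⟩; exact α.mapsTo (hKR hx)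
  have hζR : ζ ⊆ R₂ := by
    rw [← hρ₂']
    rintro _ ⟨p, hp, rfl⟩
    refine ρ₂.mapsTo ⟨hp.1, ?_⟩
    rw [mem_singleton_iff.1 hp.2]
    exact ⟨zero_le_one, le_refl _⟩
  have hζ : ConicalSet ζ := by
    rw [← hρ₂']
    exact ρ₂.conicalSet_image (hc'.prod conicalSet_singleton) fun p hp =>
      ⟨hp.1, by rw [mem_singleton_iff.1 hp.2]; exact ⟨zero_le_one, le_refl _⟩⟩
  have hcF := hcR.trans hR₁
  have hc'F := hc'R.trans hR₁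
  have hζF := hζR.trans hR₂
  have inj : ∀ {y y' : E} {t t' : ℝ}, y ∈ F → y' ∈ F → t ∈ Icc s₀ s₃ → t' ∈ Icc s₀ s₃ →
      κ.toFun (y, t) = κ.toFun (y', t') → y = y' ∧ t = t' := by
    intro y y' t t' hy hy' ht ht' h
    have := κ.injOn (hX ⟨hy, ht⟩) (hX ⟨hy', ht'⟩) h
    rwa [Prod.mk.injEq] at this
  have mem : ∀ {A : Set E} {I : Set ℝ}, A ⊆ F → I ⊆ Icc s₀ s₃ → ∀ {y : E} {t : ℝ}, y ∈ F →
      t ∈ Icc s₀ s₃ → κ.toFun (y, t) ∈ κ.toFun '' (A ×ˢ I) → y ∈ A ∧ t ∈ I := by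
    rintro A I hA hI y t hy ht ⟨⟨z, u⟩, ⟨hz, hu⟩, he⟩
    obtain ⟨h1, h2⟩ := inj (hA hz) hy (hI hu) ht he
    exact ⟨h1 ▸ hz, h2 ▸ hu⟩
  have i3 : Icc s₂ s₃ ⊆ Icc s₀ s₃ := Icc_subset_Icc (by linarith) le_rfl
  have i2 : ({s₂} : Set ℝ) ⊆ Icc s₀ s₃ := by
    rintro t rfl; exact ⟨by linarith, by linarith⟩
  have i1 : Icc s₁ s₂ ⊆ Icc s₀ s₃ := Icc_subset_Icc (by linarith) (by linarith)
  have i1' : ({s₁} : Set ℝ) ⊆ Icc s₀ s₃ := by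
    rintro t rfl; exact ⟨by linarith, by linarith⟩
  have i0 : Icc s₀ s₁ ⊆ Icc s₀ s₃ := Icc_subset_Icc le_rfl (by linarith)
  have hsub : ∀ {A : Set E} {I : Set ℝ}, A ⊆ F → I ⊆ Icc s₀ s₃ → A ×ˢ I ⊆ X := fun hA hI p hp =>
    hX ⟨hA hp.1, hI hp.2⟩
  -- step 1
  have hD₂ := hD₁.add_vertical κ hc h23 (hsub hcF i3) hside
  set D₂ := D₁ ∪ κ.toFun '' (c ×ˢ Icc s₂ s₃) with hD₂def
  have m2 : ∀ y ∈ F, ∀ t ∈ Icc s₀ s₂, κ.toFun (y, t) ∈ D₂ → y ∈ c ∧ t = s₂ := by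
    intro y hy t ht h
    rcases h with h | h
    · exact absurd h (hlow y hy t ht)
    · obtain ⟨h1, h2⟩ := mem hcF i3 hy ⟨ht.1, ht.2.trans h23.le⟩ h
      exact ⟨h1, le_antisymm ht.2 h2.1⟩
  -- step 2: the ring
  have hX2 : R₁ ×ˢ {s₂} ⊆ X := hsub hR₁ i2
  have hLc : IsCompact (κ.toFun '' (R₁ ×ˢ {s₂})) := (κ.levelR α s₂ hX2).isCompact_right hR
  have hD₃ := hD₂.add_ring hE' hK hKER hER hγR hR.isClosed hKR (κ.levelR α s₂ hX2)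
    (by rw [image_levelR κ α s₂ hX2 γ', hcdef]) (by
      rintro _ ⟨⟨⟨y, t⟩, hp, rfl⟩, hzD⟩
      have ht : t = s₂ := hp.2
      subst ht
      exact ⟨(y, t), ⟨(m2 y (hR₁ hp.1) t ⟨by linarith, le_refl _⟩ hzD).1, rfl⟩, rfl⟩)
    hLc.isClosed
  rw [image_levelR κ α s₂ hX2 bK, hc'def] at hD₃
  set D₃ := D₂ ∪ κ.toFun '' (R₁ ×ˢ {s₂}) with hD₃def
  have m3 : ∀ y ∈ F, ∀ t ∈ Icc s₀ s₂, κ.toFun (y, t) ∈ D₃ → y ∈ R₁ ∧ t = s₂ := by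
    intro y hy t ht h
    rcases h with h | h
    · obtain ⟨h1, h2⟩ := m2 y hy t ht h
      exact ⟨hcR h1, h2⟩
    · exact mem hR₁ i2 hy ⟨ht.1, ht.2.trans h23.le⟩ h
  -- step 3
  have hD₄ := hD₃.add_vertical κ hc' h12 (hsub hc'F i1) fun y hy t ht h =>
    (m3 y (hc'F hy) t ⟨by linarith [ht.1], ht.2⟩ h).2
  set D₄ := D₃ ∪ κ.toFun '' (c' ×ˢ Icc s₁ s₂) with hD₄def
  have m4 : ∀ y ∈ F, ∀ t ∈ Icc s₀ s₁, κ.toFun (y, t) ∈ D₄ → y ∈ c' ∧ t = s₁ := by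
    intro y hy t ht h
    rcases h with h | h
    · obtain ⟨h1, h2⟩ := m3 y hy t ⟨ht.1, ht.2.trans h12.le⟩ h
      exact absurd h2 (by linarith [ht.2])
    · obtain ⟨h1, h2⟩ := mem hc'F i1 hy ⟨ht.1, by linarith [ht.2]⟩ h
      exact ⟨h1, le_antisymm ht.2 h2.1⟩
  -- step 4
  have hD₅ := hD₄.add_horizontal κ hc' ρ₂ hρ₂ (hsub hR₂ i1') fun y hy h =>
    (m4 y (hR₂ hy) s₁ ⟨h01.le, le_refl _⟩ h).1
  rw [hρ₂'] at hD₅
  set D₅ := D₄ ∪ κ.toFun '' (R₂ ×ˢ {s₁}) with hD₅def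
  have hc'R₂ : c' ⊆ R₂ := fun y hy => by
    have := ρ₂.mapsTo (show (y, (0:ℝ)) ∈ c' ×ˢ Icc (0:ℝ) 1 from ⟨hy, le_refl _, zero_le_one⟩)
    rwa [hρ₂ y hy] at this
  have m5 : ∀ y ∈ F, ∀ t ∈ Icc s₀ s₁, κ.toFun (y, t) ∈ D₅ → y ∈ R₂ ∧ t = s₁ := by
    intro y hy t ht h
    rcases h with h | h
    · obtain ⟨h1, h2⟩ := m4 y hy t ht h
      exact ⟨hc'R₂ h1, h2⟩
    · exact mem hR₂ i1' hy ⟨ht.1, by linarith [ht.2]⟩ h
  -- step 5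
  have hD₆ := hD₅.add_vertical κ hζ h01 (hsub hζF i0) fun y hy t ht h =>
    (m5 y (hζF hy) t ht h).2
  refine ⟨_, hD₆, ?_, ?_, ?_⟩
  · intro x hx
    exact Or.inl (Or.inl (Or.inl (Or.inl (Or.inl hx))))
  · rintro x (((((hx | hx) | hx) | hx) | hx) | hx)
    · exact Or.inl hx
    · refine Or.inr (image_mono ?_ hx)
      exact prod_mono (hcR.trans subset_union_left) i3
    · refine Or.inr (image_mono ?_ hx)
      exact prod_mono subset_union_left i2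
    · refine Or.inr (image_mono ?_ hx)
      exact prod_mono (hc'R.trans subset_union_left) i1
    · refine Or.inr (image_mono ?_ hx)
      exact prod_mono subset_union_right i1'
    · refine Or.inr (image_mono ?_ hx)
      exact prod_mono (hζR.trans subset_union_right) i0
  · intro y hy h
    rcases h with h | h
    · have h2 := (m5 y hy s₀ ⟨le_refl _, h01.le⟩ h).2
      exact absurd h2 h01.ne
    · exact (mem hζF i0 hy ⟨le_refl _, by linarith⟩ h).1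

/-! ### The chart of the annulus -/

variable {Z : Set H} {A : Set E}

/-- the affine map `[1/2, 1] → [-1, 1]` -/
noncomputable def affA : ConHomeo (Icc (1 / 2 : ℝ) 1) (Icc (-1:ℝ) 1) :=
  ConHomeo.affIcc (by norm_num : (1/2:ℝ) < 1) (by norm_num : (-1:ℝ) < 1)

theorem affA_apply (x : ℝ) : affA.toFun x = 4 * x - 3 := by
  show -1 + (x - 1 / 2) / (1 - 1 / 2) * (1 - -1) = 4 * x - 3
  norm_num
  ring

/-- chart of the annulus `a (Z × [-1,1])` -/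
noncomputable def annChart (σ : ConHomeo (sphere (0 : ℝ × ℝ) 1) Z)
    (a : ConHomeo (Z ×ˢ Icc (-1:ℝ) 1) A) : ConHomeo Ann A :=
  polar.trans ((σ.prod affA).trans a)

theorem annChart_apply (σ : ConHomeo (sphere (0 : ℝ × ℝ) 1) Z)
    (a : ConHomeo (Z ×ˢ Icc (-1:ℝ) 1) A) (x : ℝ × ℝ) :
    (annChart σ a).toFun x = a.toFun (σ.toFun (polar.toFun x).1, 4 * ‖x‖ - 3) := by
  show a.toFun (σ.toFun (polar.toFun x).1, affA.toFun (polar.toFun x).2) = _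
  rw [affA_apply, polar_snd]

/-- inverse of the chart -/
theorem annChart_inv (σ : ConHomeo (sphere (0 : ℝ × ℝ) 1) Z)
    (a : ConHomeo (Z ×ˢ Icc (-1:ℝ) 1) A) {z : H} {s : ℝ} (hz : z ∈ Z)
    (hs : s ∈ Icc (-1:ℝ) 1) :
    (annChart σ a).invFun (a.toFun (z, s)) ∈ Ann ∧
      σ.toFun (polar.toFun ((annChart σ a).invFun (a.toFun (z, s)))).1 = z ∧
      4 * ‖(annChart σ a).invFun (a.toFun (z, s))‖ - 3 = s := by
  have hm : (z, s) ∈ Z ×ˢ Icc (-1:ℝ) 1 := ⟨hz, hs⟩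
  have hA : a.toFun (z, s) ∈ A := a.mapsTo hm
  have h1 := (annChart σ a).mapsTo_inv hA
  have h2 := (annChart σ a).right_inv hA
  rw [annChart_apply] at h2
  set x := (annChart σ a).invFun (a.toFun (z, s)) with hx
  have h3 : (σ.toFun (polar.toFun x).1, 4 * ‖x‖ - 3) ∈ Z ×ˢ Icc (-1:ℝ) 1 := by
    refine ⟨σ.mapsTo (polar.mapsTo h1).1, ?_⟩
    have := h1.1
    have := h1.2
    constructor <;> simp only <;> linarith
  have h4 := a.injOn h3 hm h2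
  rw [Prod.mk.injEq] at h4
  exact ⟨h1, h4.1, h4.2⟩

theorem annChart_image_sphere (σ : ConHomeo (sphere (0 : ℝ × ℝ) 1) Z)
    (a : ConHomeo (Z ×ˢ Icc (-1:ℝ) 1) A) :
    (annChart σ a).toFun '' sphere 0 1 = a.toFun '' (Z ×ˢ {1}) := by
  ext p
  constructor
  · rintro ⟨x, hx, rfl⟩
    have hx1 : ‖x‖ = 1 := mem_sphere_zero_iff_norm.1 hx
    refine ⟨_, ?_, (annChart_apply σ a x).symm⟩
    refine ⟨σ.mapsTo ?_, ?_⟩
    · rw [polar_fst_of_sphere hx1]; exact hx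
    · show 4 * ‖x‖ - 3 ∈ ({1} : Set ℝ)
      rw [hx1, mem_singleton_iff]; norm_num
  · rintro ⟨⟨z, s⟩, ⟨hz, hs⟩, rfl⟩
    rw [mem_singleton_iff] at hs
    simp only at hs hz
    subst hs
    obtain ⟨h1, h2, h3⟩ := annChart_inv σ a hz (right_mem_Icc.2 (by norm_num : (-1:ℝ) ≤ 1))
    refine ⟨_, ?_, (annChart σ a).right_inv (a.mapsTo ⟨hz, right_mem_Icc.2 (by norm_num)⟩)⟩
    rw [mem_sphere_zero_iff_norm]; linarith

theorem annChart_image_open (σ : ConHomeo (sphere (0 : ℝ × ℝ) 1) Z)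
    (a : ConHomeo (Z ×ˢ Icc (-1:ℝ) 1) A) {S : Set (ℝ × ℝ)}
    (hS : ∀ x ∈ S, ‖x‖ ∈ Ioo (1 / 2 : ℝ) 1) :
    (annChart σ a).toFun '' S ⊆ a.toFun '' (Z ×ˢ Ioo (-1) 1) := by
  rintro _ ⟨x, hx, rfl⟩
  have hxn := hS x hx
  refine ⟨_, ?_, (annChart_apply σ a x).symm⟩
  refine ⟨σ.mapsTo (polar.mapsTo (show x ∈ Ann from ⟨hxn.1.le, hxn.2.le⟩)).1, ?_⟩
  show 4 * ‖x‖ - 3 ∈ Ioo (-1:ℝ) 1
  constructor <;> linarith [hxn.1, hxn.2]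

/-- images of open sets of the open annulus are relatively open in the surface -/
theorem annChart_relOpen (σ : ConHomeo (sphere (0 : ℝ × ℝ) 1) Z)
    (a : ConHomeo (Z ×ˢ Icc (-1:ℝ) 1) A) {F : Set E} (hA : A ⊆ F)
    (hAo : ∃ U, IsOpen U ∧ U ∩ F = a.toFun '' (Z ×ˢ Ioo (-1) 1))
    {S : Set (ℝ × ℝ)} (hSo : IsOpen S) (hS : ∀ x ∈ S, ‖x‖ ∈ Ioo (1 / 2 : ℝ) 1) :
    ∃ U, IsOpen U ∧ U ∩ F = (annChart σ a).toFun '' S := by
  obtain ⟨U₀, hU₀, hU₀F⟩ := hAo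
  obtain ⟨U₁, hU₁, hU₁e⟩ := continuousOn_iff'.1 (annChart σ a).cont_inv S hSo
  have hSA : S ⊆ Ann := fun x hx => ⟨(hS x hx).1.le, (hS x hx).2.le⟩
  refine ⟨U₀ ∩ U₁, hU₀.inter hU₁, ?_⟩
  ext p
  constructor
  · rintro ⟨⟨hp0, hp1⟩, hpF⟩
    have h1 : p ∈ a.toFun '' (Z ×ˢ Ioo (-1) 1) := by rw [← hU₀F]; exact ⟨hp0, hpF⟩
    have hpA : p ∈ A := by
      obtain ⟨q, hq, rfl⟩ := h1
      exact a.mapsTo ⟨hq.1, Ioo_subset_Icc_self hq.2⟩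
    have h2 : p ∈ (annChart σ a).invFun ⁻¹' S ∩ A := by rw [hU₁e]; exact ⟨hp1, hpA⟩
    exact ⟨_, h2.1, (annChart σ a).right_inv hpA⟩
  · rintro ⟨x, hx, rfl⟩
    have h1 := annChart_image_open σ a hS ⟨x, hx, rfl⟩
    have hxA : (annChart σ a).toFun x ∈ A := (annChart σ a).mapsTo (hSA hx)
    rw [← hU₀F] at h1
    have h2 : (annChart σ a).toFun x ∈ (annChart σ a).invFun ⁻¹' S ∩ A := by
      refine ⟨?_, hxA⟩
      show (annChart σ a).invFun ((annChart σ a).toFun x) ∈ S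
      rw [(annChart σ a).left_inv (hSA hx)]; exact hx
    rw [hU₁e] at h2
    exact ⟨⟨h1.1, h2.1⟩, hA hxA⟩

/-- the product structure between `a (Z × {1})` and `a (Z × {0})` -/
noncomputable def halfCollar (hΔ : ConicalSet Z)
    (a : ConHomeo (Z ×ˢ Icc (-1:ℝ) 1) A) :
    ConHomeo ((a.toFun '' (Z ×ˢ {1})) ×ˢ Icc (0:ℝ) 1)
      (a.toFun '' (Z ×ˢ Icc (0:ℝ) 1)) :=
  ((a.level hΔ 1 (prod_mono subset_rfl (by
      rintro t rfl; exact right_mem_Icc.2 (by norm_num)))).symm.prod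
    (ConHomeo.affRev (zero_lt_one (α := ℝ)))).trans
    (a.restr (hΔ.prod (conicalSet_Icc 0 1)) (prod_mono subset_rfl
      (Icc_subset_Icc (by norm_num) le_rfl)))

theorem halfCollar_apply (hΔ : ConicalSet Z)
    (a : ConHomeo (Z ×ˢ Icc (-1:ℝ) 1) A) {z : H} (hz : z ∈ Z) (t : ℝ) :
    (halfCollar hΔ a).toFun (a.toFun (z, 1), t) = a.toFun (z, 1 - t) := by
  show a.toFun ((a.invFun (a.toFun (z, 1))).1, 1 - t * (1 - 0)) = _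
  rw [a.left_inv (show (z, (1:ℝ)) ∈ Z ×ˢ Icc (-1:ℝ) 1 from
    ⟨hz, right_mem_Icc.2 (by norm_num)⟩)]
  simp

end P073
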