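import Vale.Agent.P073.PA260.EssSeg
import Vale.Agent.P073.PA691.Spec
import Vale.Agent.P073.H339.SpecPlanar

/-!
# P073, block PA (helper260): DISC, part C

The planar copies of the circles of a level.
-/

open Set Metric Topology Filter

namespace P073.PA260

open PA691

open H339 (pairHomeo pairHomeo_image_closedBall pairHomeo_image_sphere conSphere_iff
  pairHomeo_norm pairHomeo_inv_norm conicalSet_sphere_prod)

variable {G : Type*} [NormedAddCommGroup G] [NormedSpace ℝ G]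

/-- the closed annulus -/
abbrev FA : Set (P2 × ℝ) := S1 ×ˢ Icc (-1:ℝ) 1

/-- the open annulus -/
abbrev FO : Set (P2 × ℝ) := S1 ×ˢ Ioo (-1:ℝ) 1

theorem conicalSet_S1 : ConicalSet S1 := pairSph.conicalSet_right

theorem conicalSet_FA : ConicalSet FA := conicalSet_S1.prod (conicalSet_Icc (-1) 1)

theorem conicalSet_FO : ConicalSet FO := conicalSet_S1.prod (IsOpen.conicalSet isOpen_Ioo)

theorem FO_subset : FO ⊆ FA := prod_mono subset_rfl Ioo_subset_Icc_self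

/-- the standard chart of the annulus -/
noncomputable def chA : ConHomeo Ann FA := annChart pairSph (ConHomeo.refl conicalSet_FA)

theorem chA_apply (x : ℝ × ℝ) :
    chA.toFun x = (pairSph.toFun (polar.toFun x).1, 4 * ‖x‖ - 3) := annChart_apply _ _ x

theorem chA_inv {θ : P2} {s : ℝ} (hθ : θ ∈ S1) (hs : s ∈ Icc (-1:ℝ) 1) :
    chA.invFun (θ, s) ∈ Ann ∧ pairSph.toFun (polar.toFun (chA.invFun (θ, s))).1 = θ ∧
      4 * ‖chA.invFun (θ, s)‖ - 3 = s :=
  annChart_inv pairSph (ConHomeo.refl conicalSet_FA) hθ hs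

/-- **The planar copy of a circle of the level `c`.** -/
theorem exists_disc {N D₀ : Set G} (κ : ConHomeo (FA ×ˢ Icc (-1:ℝ) 1) N)
    {Q₀ : Set (ℝ × ℝ)} (g : ConHomeo Q₀ D₀) {c : ℝ} (hc : c ∈ Icc (-1:ℝ) 1)
    {Δ ζ : Set P2} (hΔ : ConBall 2 Δ ζ) (h0Δ : (0 : P2) ∈ Δ) (h0ζ : (0 : P2) ∉ ζ)
    (z : ConHomeo S1 ζ) {D : Set (ℝ × ℝ)} (hD : AmbDisc D) (hDQ : frontier D ⊆ Q₀)
    (hg : ∀ y ∈ frontier D, ∃ θ ∈ S1, ∃ τ ∈ Ioo (-1:ℝ) 1, g.toFun y = κ.toFun ((θ, τ), c) ∧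
      (0 : P2) ∉ segment ℝ (pairHomeo.toFun y) (z.toFun θ)) :
    ∃ E' : Set (ℝ × ℝ), AmbDisc E' ∧ E' ⊆ ball 0 1 ∧
      (∀ x ∈ frontier E', ‖x‖ ∈ Ioo (1 / 2 : ℝ) 1) ∧
      κ.toFun '' ((chA.toFun '' frontier E') ×ˢ {c}) = g.toFun '' frontier D ∧
      ((0 : ℝ × ℝ) ∈ D → closedBall 0 (1 / 2) ⊆ interior E') ∧
      ((0 : ℝ × ℝ) ∉ D → ∀ x ∈ E', ‖x‖ ∈ Ioo (1 / 2 : ℝ) 1) := by
  have hX : FA ×ˢ {c} ⊆ FA ×ˢ Icc (-1:ℝ) 1 := prod_mono subset_rfl (by
    rintro t rfl; exact hc)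
  let L := κ.levelR chA c hX
  have hγc : ConicalSet (frontier D) := (SCH.conBall_of_ambDisc hD).conicalSet_bdry
  have hgL : g.toFun '' frontier D ⊆ κ.toFun '' (FA ×ˢ {c}) := by
    rintro _ ⟨y, hy, rfl⟩
    obtain ⟨θ, hθ, τ, hτ, he, -⟩ := hg y hy
    exact ⟨((θ, τ), c), ⟨⟨hθ, Ioo_subset_Icc_self hτ⟩, rfl⟩, he.symm⟩
  let T : ConHomeo (frontier D) (L.symm.toFun '' (g.toFun '' frontier D)) :=
    (g.restr hγc hDQ).trans (L.symm.restr (g.conicalSet_image hγc hDQ) hgL)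
  have hcirc : IsCircle (L.symm.toFun '' (g.toFun '' frontier D)) := by
    obtain ⟨φ⟩ := hD.frontier_isCircle
    exact ⟨φ.trans T⟩
  obtain ⟨E', hE', hfr⟩ := SCH.schoenflies hcirc
  have hT : ∀ y ∈ frontier D, ∃ θ ∈ S1, ∃ τ ∈ Ioo (-1:ℝ) 1, T.toFun y = chA.invFun (θ, τ) ∧
      (0 : P2) ∉ segment ℝ (pairHomeo.toFun y) (z.toFun θ) := by
    intro y hy
    obtain ⟨θ, hθ, τ, hτ, he, hs⟩ := hg y hy
    refine ⟨θ, hθ, τ, hτ, ?_, hs⟩
    have hτ' := Ioo_subset_Icc_self hτ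
    have h1 := (chA_inv hθ hτ').1
    have h2 : L.toFun (chA.invFun (θ, τ)) = g.toFun y := by
      show κ.toFun (chA.toFun (chA.invFun (θ, τ)), c) = g.toFun y
      rw [chA.right_inv (show (θ, τ) ∈ FA from ⟨hθ, hτ'⟩), he]
    show L.invFun (g.toFun y) = _
    rw [← h2, L.left_inv h1]
  have hpol : ∀ y ∈ frontier D, (0 : P2) ∉ segment ℝ (pairHomeo.toFun y)
      (z.toFun (pairSph.toFun (polar.toFun (T.toFun y)).1)) := by
    intro y hy
    obtain ⟨θ, hθ, τ, hτ, he, hs⟩ := hT y hy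
    rw [he, (chA_inv hθ (Ioo_subset_Icc_self hτ)).2.1]
    exact hs
  have hTn : ∀ y ∈ frontier D, ‖T.toFun y‖ ∈ Ioo (1 / 2 : ℝ) 1 := by
    intro y hy
    obtain ⟨θ, hθ, τ, hτ, he, hs⟩ := hT y hy
    have h1 := (chA_inv hθ (Ioo_subset_Icc_self hτ)).2.2
    rw [← he] at h1
    constructor <;> linarith [hτ.1, hτ.2]
  have hfn : ∀ x ∈ frontier E', ‖x‖ ∈ Ioo (1 / 2 : ℝ) 1 := by
    intro x hx
    rw [hfr] at hx
    obtain ⟨_, ⟨y, hy, rfl⟩, rfl⟩ := hx
    exact hTn y hy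
  have hEb : E' ⊆ ball 0 1 := SCH.AmbDisc.subset_ball hE' fun x hx => by
    rw [mem_ball_zero_iff]; exact (hfn x hx).2
  have hdich := subset_interior_or_compl (D := E') (S := closedBall (0 : ℝ × ℝ) (1 / 2))
    (convex_closedBall _ _).isPreconnected (by
      rw [Set.disjoint_left]
      intro x hx hx'
      have := mem_closedBall_zero_iff.1 hx
      linarith [(hfn x hx').1])
  let T' : ConHomeo (frontier D) (frontier E') := T.cast rfl hfr.symm
  refine ⟨E', hE', hEb, hfn, ?_, fun h0 => ?_, fun h0 => ?_⟩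
  · rw [hfr, ← image_levelR κ chA c hX]
    show L.toFun '' (L.invFun '' (g.toFun '' frontier D)) = _
    rw [image_image]
    have : ∀ x ∈ g.toFun '' frontier D, L.toFun (L.invFun x) = x := fun x hx =>
      L.right_inv (hgL hx)
    rw [image_congr this, image_id']
  · rcases hdich with h | h
    · exact h
    exfalso
    have hEA : ∀ x ∈ E', x ∈ Ann := by
      intro x hx
      refine ⟨?_, (mem_ball_zero_iff.1 (hEb hx)).le⟩
      by_contra hn
      rw [not_le] at hn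
      exact h (mem_closedBall_zero_iff.2 hn.le) (subset_closure hx)
    have hpm : ∀ x ∈ E', (polar.toFun x).1 ∈ sphere (0 : ℝ × ℝ) 1 := fun x hx =>
      (polar.mapsTo (hEA x hx)).1
    refine notMem_of_bounds₂_seg hD (SCH.conBall_of_ambDisc hE') T'
      (v := fun x => z.toFun (pairSph.toFun (polar.toFun x).1)) ?_ ?_ hpol h0
    · refine z.cont.comp (pairSph.cont.comp ?_ hpm) fun x hx => pairSph.mapsTo (hpm x hx)
      exact (continuous_fst.comp_continuousOn polar.cont).mono hEA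
    · intro x hx h1
      refine h0ζ ?_
      rw [← h1]
      exact z.mapsTo (pairSph.mapsTo (hpm x hx))
  · rcases hdich with h | h
    · exfalso
      refine h0 (mem_of_essential₂_seg hD hE' hEb (h.trans interior_subset) (fun x hx =>
        ⟨(hfn x hx).1.le, (hfn x hx).2.le⟩) T' hΔ h0Δ h0ζ z hpol)
    · intro x hx
      refine ⟨?_, mem_ball_zero_iff.1 (hEb hx)⟩
      by_contra hn
      rw [not_lt] at hn
      exact h (mem_closedBall_zero_iff.2 hn) (subset_closure hx)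

end P073.PA260
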