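import Vale.Agent.P073.PA260.DiscC

/-!
# P073, block PA (helper260): DISC, part D

The product structure near the annulus as a bicollar; the assembly.
-/

open Set Metric Topology Filter

namespace P073.PA260

open PA691

open H339 (pairHomeo pairHomeo_image_closedBall pairHomeo_image_sphere conSphere_iff
  pairHomeo_norm pairHomeo_inv_norm conicalSet_sphere_prod)

variable {G : Type*} [NormedAddCommGroup G] [NormedSpace ℝ G]

/-- reassociation -/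
def assocI : ConHomeo (FA ×ˢ Icc (-1:ℝ) 1) (S1 ×ˢ (Icc (-1:ℝ) 1 ×ˢ Icc (-1:ℝ) 1)) where
  toFun := fun p => (p.1.1, p.1.2, p.2)
  invFun := fun p => ((p.1, p.2.1), p.2.2)
  mapsTo := fun p hp => ⟨hp.1.1, hp.1.2, hp.2⟩
  mapsTo_inv := fun p hp => ⟨⟨hp.1, hp.2.1⟩, hp.2.2⟩
  left_inv := fun _ _ => rfl
  right_inv := fun _ _ => rfl
  cont := by fun_prop
  cont_inv := by fun_prop
  conical := (conicalOn_id (conicalSet_FA.prod (conicalSet_Icc (-1) 1))).linear_comp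
    (LinearEquiv.prodAssoc ℝ P2 ℝ ℝ).toLinearMap

theorem isCompact_FA : IsCompact (FA ×ˢ Icc (-1:ℝ) 1) :=
  ((isCompact_sphere (0 : P2) 1).prod isCompact_Icc).prod isCompact_Icc

theorem FO_sub : FO ×ˢ Icc (-1:ℝ) 1 ⊆ FA ×ˢ Icc (-1:ℝ) 1 := prod_mono FO_subset subset_rfl

/-- the open part of the bicollar -/
noncomputable def openPart {N : Set G} (κ : ConHomeo (FA ×ˢ Icc (-1:ℝ) 1) N) :
    ConHomeo (FO ×ˢ Icc (-1:ℝ) 1) (κ.toFun '' (FO ×ˢ Icc (-1:ℝ) 1)) :=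
  κ.restr (conicalSet_FO.prod (conicalSet_Icc (-1) 1)) FO_sub

/-- the hypotheses of `SpecDisc`, with the reassociated product structure -/
structure Ctx (O I N D₀ : Set G) (κ : ConHomeo (FA ×ˢ Icc (-1:ℝ) 1) N)
    (Q₀ : Set (ℝ × ℝ)) (g : ConHomeo Q₀ D₀) : Prop where
  hQ : AmbDisc Q₀
  hO : IsOpen O
  hI : IsOpen I
  hOI : Disjoint O I
  hκo : IsOpen (κ.toFun '' (FO ×ˢ Ioo (-1:ℝ) 1))
  hpos : ∀ p ∈ FA, ∀ t ∈ Ioc (0:ℝ) 1, κ.toFun (p, t) ∈ O
  hneg : ∀ p ∈ FA, ∀ t ∈ Ico (-1:ℝ) 0, κ.toFun (p, t) ∈ I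
  hcov : ∀ y ∈ Q₀, g.toFun y ∈ O ∪ I ∪ κ.toFun '' (FO ×ˢ {0})
  hτ : ∀ y ∈ Q₀, ∀ p ∈ FA, ∀ t ∈ Icc (-1:ℝ) 1, g.toFun y = κ.toFun (p, t) → p ∈ FO
  h0 : (0 : ℝ × ℝ) ∈ interior Q₀
  hg0 : g.toFun 0 ∈ O
  hg0N : g.toFun 0 ∉ N
  hgS : ∀ y ∈ frontier Q₀, g.toFun y ∈ I

variable {O I N D₀ : Set G} {κ : ConHomeo (FA ×ˢ Icc (-1:ℝ) 1) N} {Q₀ : Set (ℝ × ℝ)}
  {g : ConHomeo Q₀ D₀}

theorem Ctx.bicollar (H : Ctx O I N D₀ κ Q₀ g) :
    Bicollar D₀ FO (κ.toFun '' (FO ×ˢ Icc (-1:ℝ) 1)) O I (openPart κ) where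
  closed := by
    intro x hx hcl
    have hNc : IsClosed N := (κ.isCompact_right isCompact_FA).isClosed
    have hsub : κ.toFun '' (FO ×ˢ Icc (-1:ℝ) 1) ⊆ N := by
      rintro _ ⟨p, hp, rfl⟩
      exact κ.mapsTo (FO_sub hp)
    have hxN : x ∈ N := by
      have := closure_mono hsub hcl
      rwa [hNc.closure_eq] at this
    rw [← g.image_eq] at hx
    obtain ⟨y, hy, rfl⟩ := hx
    rw [← κ.image_eq] at hxN
    obtain ⟨⟨p, t⟩, hp, he⟩ := hxN
    exact ⟨(p, t), ⟨H.hτ y hy p hp.1 t hp.2 he.symm, hp.2⟩, he⟩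
  isOpen := H.hκo
  out_open := H.hO
  in_open := H.hI
  disj := H.hOI
  cover := by
    intro x hx
    rw [← g.image_eq] at hx
    obtain ⟨y, hy, rfl⟩ := hx
    rcases H.hcov y hy with (h | h) | h
    · exact Or.inl h
    · exact Or.inr (Or.inl h)
    · exact Or.inr (Or.inr h)
  pos := fun y hy t ht => H.hpos y (FO_subset hy) t ht
  neg := fun y hy t ht => H.hneg y (FO_subset hy) t ht
  zero := by
    intro y hy
    have hc : ContinuousOn (fun t : ℝ => κ.toFun (y, t)) (Icc (-1:ℝ) 1) :=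
      κ.cont.comp (Continuous.prodMk_right y).continuousOn fun t ht => ⟨FO_subset hy, ht⟩
    have h0 : (0:ℝ) ∈ Icc (-1:ℝ) 1 := by constructor <;> norm_num
    constructor
    · intro h
      have h1 : (0:ℝ) ∈ closure (Ico (-1:ℝ) 0) := by
        rw [closure_Ico (by norm_num)]; constructor <;> norm_num
      have h2 := ((hc 0 h0).mono (show Ico (-1:ℝ) 0 ⊆ Icc (-1) 1 from fun t ht =>
        ⟨ht.1, by linarith [ht.2]⟩)).mem_closure_image h1
      have h3 : κ.toFun (y, 0) ∈ closure I := closure_mono (by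
        rintro _ ⟨t, ht, rfl⟩
        exact H.hneg y (FO_subset hy) t ht) h2
      exact Set.disjoint_left.1 (H.hOI.closure_right H.hO) h h3
    · intro h
      have h1 : (0:ℝ) ∈ closure (Ioc (0:ℝ) 1) := by
        rw [closure_Ioc (by norm_num)]; constructor <;> norm_num
      have h2 := ((hc 0 h0).mono (show Ioc (0:ℝ) 1 ⊆ Icc (-1) 1 from fun t ht =>
        ⟨by linarith [ht.1], ht.2⟩)).mem_closure_image h1
      have h3 : κ.toFun (y, 0) ∈ closure O := closure_mono (by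
        rintro _ ⟨t, ht, rfl⟩
        exact H.hpos y (FO_subset hy) t ht) h2
      exact Set.disjoint_left.1 (H.hOI.closure_left H.hI) h3 h

end P073.PA260
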