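import Vale.Agent.P073.PA260.DiscD

/-!
# P073, block PA (helper260): DISC, part E

The component of the centre with its holes capped.
-/

open Set Metric Topology Filter

namespace P073.PA260

open PA691

open H339 (pairHomeo pairHomeo_image_closedBall pairHomeo_image_sphere conSphere_iff
  pairHomeo_norm pairHomeo_inv_norm conicalSet_sphere_prod)

variable {G : Type*} [NormedAddCommGroup G] [NormedSpace ℝ G]

theorem chA_relOpen {S : Set (ℝ × ℝ)} (hSo : IsOpen S) (hS : ∀ x ∈ S, ‖x‖ ∈ Ioo (1 / 2 : ℝ) 1) :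
    ∃ U, IsOpen U ∧ U ∩ FA = chA.toFun '' S := by
  refine annChart_relOpen pairSph (ConHomeo.refl conicalSet_FA) subset_rfl
    ⟨univ ×ˢ Ioo (-1:ℝ) 1, isOpen_univ.prod isOpen_Ioo, ?_⟩ hSo hS
  ext p
  constructor
  · rintro ⟨h1, h2⟩
    exact ⟨p, ⟨h2.1, h1.2⟩, rfl⟩
  · rintro ⟨q, hq, rfl⟩
    exact ⟨⟨mem_univ _, hq.2⟩, FO_subset hq⟩

theorem chA_mem_FO {x : ℝ × ℝ} (hx : ‖x‖ ∈ Ioo (1 / 2 : ℝ) 1) : chA.toFun x ∈ FO := by
  have hxA : x ∈ Ann := ⟨hx.1.le, hx.2.le⟩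
  have h := chA.mapsTo hxA
  refine ⟨h.1, ?_⟩
  rw [chA_apply]
  constructor
  · show -1 < 4 * ‖x‖ - 3
    linarith [hx.1]
  · show 4 * ‖x‖ - 3 < 1
    linarith [hx.2]

variable {O I N D₀ : Set G} {κ : ConHomeo (FA ×ˢ Icc (-1:ℝ) 1) N} {Q₀ : Set (ℝ × ℝ)}
  {g : ConHomeo Q₀ D₀}

/-- **The capped disc.** -/
theorem Ctx.capped (H : Ctx O I N D₀ κ Q₀ g) {Δ ζ : Set P2} (hΔ : ConBall 2 Δ ζ)
    (h0Δ : (0 : P2) ∈ Δ) (h0ζ : (0 : P2) ∉ ζ) (z : ConHomeo S1 ζ)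
    (hseg : ∀ y ∈ Q₀, ∀ θ ∈ S1, ∀ τ ∈ Icc (-1:ℝ) 1, ∀ t ∈ Icc (-1:ℝ) 1,
      g.toFun y = κ.toFun ((θ, τ), t) → (0 : P2) ∉ segment ℝ (pairHomeo.toFun y) (z.toFun θ)) :
    ∃ c ∈ Ioo (0:ℝ) 1, ∃ E' : Set (ℝ × ℝ), AmbDisc E' ∧ E' ⊆ ball 0 1 ∧
      (∀ x ∈ frontier E', ‖x‖ ∈ Ioo (1 / 2 : ℝ) 1) ∧ closedBall 0 (1 / 2) ⊆ interior E' ∧
      ∃ D₁ : Set G, ConBall 2 D₁ (κ.toFun '' ((chA.toFun '' frontier E') ×ˢ {c})) ∧
        D₁ ⊆ O ∧ D₁ ⊆ D₀ ∪ κ.toFun '' (FA ×ˢ Icc (0:ℝ) 1) ∧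
        (∀ p ∈ FA, ∀ t ∈ Icc 0 (c / 2), κ.toFun (p, t) ∉ D₁) ∧
        (∀ p ∈ chA.toFun '' frontier E', ∀ t ∈ Icc (c / 2) c, κ.toFun (p, t) ∈ D₁ → t = c) ∧
        ∀ M ⊆ Q₀, IsPreconnected M → (0 : ℝ × ℝ) ∈ M → (∀ y ∈ M, g.toFun y ∉ N) →
          g.toFun '' M ⊆ D₁ := by
  classical
  have HB := H.bicollar
  obtain ⟨c, hc, J, hJ, D, hD, hdis, hDQ, hlev⟩ := HB.exists_level H.hQ g subset_rfl H.hgS
  have hcI : c ∈ Icc (-1:ℝ) 1 := ⟨by linarith [hc.1], hc.2.le⟩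
  have hNsub : κ.toFun '' (FO ×ˢ Icc (-1:ℝ) 1) ⊆ N := by
    rintro _ ⟨p, hp, rfl⟩
    exact κ.mapsTo (FO_sub hp)
  obtain ⟨i₀, J', hi₀, hmi, hJ1, hJ2, hout, hK⟩ := HB.exists_component H.hQ g subset_rfl H.hgS hc
    hD hdis hDQ hlev H.h0 H.hg0 (fun h => H.hg0N (hNsub h))
  -- points of the level
  have hfD : ∀ j, frontier (D j) ⊆ D j := fun j => (hD j).isClosed.frontier_subset
  have hfQ : ∀ j, frontier (D j) ⊆ Q₀ := fun j y hy => interior_subset (hDQ j (hfD j hy))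
  have hlv : ∀ j, ∀ y ∈ frontier (D j), ∃ p ∈ FO, g.toFun y = κ.toFun (p, c) := by
    intro j y hy
    have : y ∈ {y | y ∈ Q₀ ∧ g.toFun y ∈ (openPart κ).toFun '' (FO ×ˢ {c})} := by
      rw [← hlev]; exact mem_iUnion.2 ⟨j, hy⟩
    obtain ⟨-, ⟨p, t⟩, ⟨hp, ht⟩, he⟩ := this
    rw [mem_singleton_iff] at ht
    simp only at ht hp
    subst ht
    exact ⟨p, hp, he.symm⟩
  choose E' hE' hEb hEf hEi hE1 hE2 using fun j => exists_disc κ g hcI hΔ h0Δ h0ζ z (hD j)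
    (hfQ j) (fun y hy => by
      obtain ⟨⟨θ, τ⟩, hp, he⟩ := hlv j y hy
      exact ⟨θ, hp.1, τ, hp.2, he, hseg y (hfQ j hy) θ hp.1 τ (Ioo_subset_Icc_self hp.2) c hcI he⟩)
  have hEA : ∀ j ∈ J', ∀ x ∈ E' j, ‖x‖ ∈ Ioo (1 / 2 : ℝ) 1 := fun j hj => hE2 j (hJ1 j hj).2
  have hEi₀ : closedBall 0 (1 / 2) ⊆ interior (E' i₀) := hE1 i₀ (interior_subset hmi)
  have hAnn : ∀ {x : ℝ × ℝ}, ‖x‖ ∈ Ioo (1 / 2 : ℝ) 1 → x ∈ Ann := fun hx => ⟨hx.1.le, hx.2.le⟩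
  have hfE : ∀ j, frontier (E' j) ⊆ E' j := fun j => (hE' j).isClosed.frontier_subset
  -- the frontiers are disjoint
  have hEd : ∀ i j, i ≠ j → Disjoint (frontier (E' i)) (frontier (E' j)) := by
    intro i j hij
    rw [Set.disjoint_left]
    intro x hxi hxj
    have h1 : κ.toFun (chA.toFun x, c) ∈ g.toFun '' frontier (D i) := by
      rw [← hEi i]; exact ⟨(chA.toFun x, c), ⟨⟨x, hxi, rfl⟩, rfl⟩, rfl⟩
    have h2 : κ.toFun (chA.toFun x, c) ∈ g.toFun '' frontier (D j) := by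
      rw [← hEi j]; exact ⟨(chA.toFun x, c), ⟨⟨x, hxj, rfl⟩, rfl⟩, rfl⟩
    obtain ⟨y, hy, hye⟩ := h1
    obtain ⟨w, hw, hwe⟩ := h2
    have h3 := g.injOn (hfQ i hy) (hfQ j hw) (hye.trans hwe.symm)
    subst h3
    exact Set.disjoint_left.1 (hdis i j hij) hy hw
  have hnest : ∀ i j, i ≠ j → E' i ⊆ interior (E' j) ∨ E' j ⊆ interior (E' i) ∨
      Disjoint (E' i) (E' j) := fun i j hij => SCH.AmbDisc.nested (hE' i) (hE' j) (hEd i j hij)
  -- the discs in the annulus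
  have hBA : ∀ j ∈ J', E' j ⊆ Ann := fun j hj x hx => hAnn (hEA j hj x hx)
  have hBsub : ∀ j : J', chA.toFun '' E' j ⊆ FO := by
    rintro ⟨j, hj⟩ _ ⟨x, hx, rfl⟩
    exact chA_mem_FO (hEA j hj x hx)
  have hdiff : ∀ j : J', chA.toFun '' interior (E' j) =
      chA.toFun '' E' j \ chA.toFun '' frontier (E' j) := by
    rintro ⟨j, hj⟩
    ext p
    constructor
    · rintro ⟨x, hx, rfl⟩
      refine ⟨⟨x, interior_subset hx, rfl⟩, ?_⟩
      rintro ⟨y, hy, he⟩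
      have := chA.injOn (hBA j hj (hfE j hy)) (hBA j hj (interior_subset hx)) he
      rw [this] at hy
      exact hy.2 hx
    · rintro ⟨⟨x, hx, rfl⟩, hn⟩
      refine ⟨x, ?_, rfl⟩
      by_contra h
      exact hn ⟨x, ⟨subset_closure hx, h⟩, rfl⟩
  obtain ⟨C, hC1, hC2, hC3, hC4⟩ := exists_caps (n := 2) (J := J') conicalSet_FA
    (B := fun j => chA.toFun '' E' j) (β := fun j => chA.toFun '' frontier (E' j))
    (fun j => (SCH.conBall_of_ambDisc (hE' j)).image chA (hBA j j.2))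
    (fun j => (hBsub j).trans FO_subset)
    (fun j => (SCH.AmbDisc.frontier_nonempty (hE' j)).image _)
    (fun j => by
      show ∃ U, IsOpen U ∧ U ∩ FA = chA.toFun '' E' j \ chA.toFun '' frontier (E' j)
      rw [← hdiff j]
      exact chA_relOpen isOpen_interior fun x hx => hEA j j.2 x (interior_subset hx))
    (fun i j hij => by
      show Disjoint (chA.toFun '' E' i) (chA.toFun '' E' j) ∨
        chA.toFun '' E' i ⊆ chA.toFun '' E' j \ chA.toFun '' frontier (E' j) ∨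
        chA.toFun '' E' j ⊆ chA.toFun '' E' i \ chA.toFun '' frontier (E' i)
      rw [← hdiff, ← hdiff]
      rcases hnest i j (fun h => hij (Subtype.ext h)) with h | h | h
      · exact Or.inr (Or.inl (image_mono h))
      · exact Or.inr (Or.inr (image_mono h))
      · refine Or.inl ?_
        rw [Set.disjoint_left]
        rintro _ ⟨x, hx, rfl⟩ ⟨y, hy, he⟩
        have := chA.injOn (hBA j j.2 hy) (hBA i i.2 hx) he
        subst this
        exact Set.disjoint_left.1 h hx hy)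
    (a := c / 2) (c := c) (by linarith [hc.1]) κ
    (prod_mono subset_rfl fun t ht => ⟨by linarith [ht.1, hc.1], ht.2.trans hc.2.le⟩)
  simp only [hEi] at hC1
  -- the planar domain
  set P : Set (ℝ × ℝ) := D i₀ \ ⋃ j : J', interior (D j) with hP
  have hPcl : IsClosed P := (hD i₀).isClosed.sdiff (isOpen_iUnion fun j => isOpen_interior)
  have hPc : IsCompact P := (hD i₀).isCompact.of_isClosed_subset hPcl sdiff_subset
  have hPcon : ConicalSet P :=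
    ((hD i₀).locCone.inter (LocCone.iUnion_finite fun j : J' => (hD j).locCone.interior).compl).conicalSet
  have hPD : P ⊆ D i₀ := sdiff_subset
  have hPQ : P ⊆ Q₀ := fun y hy => interior_subset (hDQ i₀ (hPD hy))
  have hPdi : ∀ y ∈ P, (∃ p ∈ FO, g.toFun y = κ.toFun (p, c)) ∨
      (g.toFun y ∈ O ∧ g.toFun y ∉ κ.toFun '' (FO ×ˢ Icc 0 c)) := by
    intro y hy
    by_cases hyi : y ∈ interior (D i₀)
    · by_cases hyJ : ∀ j ∈ J', y ∉ D j
      · exact Or.inr (hout y hyi hyJ)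
      · push Not at hyJ
        obtain ⟨j, hj, hyj⟩ := hyJ
        refine Or.inl (hlv j y ⟨subset_closure hyj, fun h => hy.2 (mem_iUnion.2 ⟨⟨j, hj⟩, h⟩)⟩)
    · exact Or.inl (hlv i₀ y ⟨subset_closure hy.1, hyi⟩)
  have hPκ : ∀ y ∈ P, ∀ p ∈ FA, ∀ t ∈ Icc 0 c, g.toFun y = κ.toFun (p, t) → t = c := by
    intro y hy p hp t ht he
    have htI : t ∈ Icc (-1:ℝ) 1 := ⟨by linarith [ht.1], ht.2.trans hc.2.le⟩
    rcases hPdi y hy with ⟨q, hq, he'⟩ | ⟨-, h⟩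
    · have := κ.injOn (show (p, t) ∈ FA ×ˢ Icc (-1:ℝ) 1 from ⟨hp, htI⟩)
        (show (q, c) ∈ FA ×ˢ Icc (-1:ℝ) 1 from ⟨FO_subset hq, hcI⟩) (he.symm.trans he')
      exact congrArg Prod.snd this
    · exact absurd ⟨(p, t), ⟨H.hτ y (hPQ hy) p hp t htI he, ht⟩, he.symm⟩ h
  have hPO : ∀ y ∈ P, g.toFun y ∈ O := by
    intro y hy
    rcases hPdi y hy with ⟨q, hq, he'⟩ | ⟨h, -⟩
    · rw [he']; exact H.hpos q (FO_subset hq) c ⟨hc.1, hc.2.le⟩
    · exact h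
  let gP : ConHomeo P (g.toFun '' P) := g.restr hPcon hPQ
  have hPc' : IsClosed (g.toFun '' P) := (gP.isCompact_right hPc).isClosed
  have hfP : ∀ j : J', frontier (D j) ⊆ P := by
    intro j y hy
    refine ⟨interior_subset ((hJ1 j j.2).1 (hfD j hy)), fun h => ?_⟩
    obtain ⟨k, hk⟩ := mem_iUnion.1 h
    by_cases hjk : j = k
    · subst hjk; exact hy.2 hk
    · exact Set.disjoint_left.1 (hJ2 j j.2 k k.2 fun h => hjk (Subtype.ext h)) (hfD j hy)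
        (interior_subset hk)
  have hf₀P : frontier (D i₀) ⊆ P := by
    intro y hy
    refine ⟨hfD i₀ hy, fun h => ?_⟩
    obtain ⟨k, hk⟩ := mem_iUnion.1 h
    exact hy.2 ((hJ1 k k.2).1 (interior_subset hk))
  have hPU : P ∪ ⋃ j : J', D j = D i₀ := by
    ext y
    constructor
    · rintro (h | h)
      · exact h.1
      · obtain ⟨j, hj⟩ := mem_iUnion.1 h
        exact interior_subset ((hJ1 j j.2).1 hj)
    · intro hy
      by_cases h : y ∈ ⋃ j : J', D j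
      · exact Or.inr h
      · refine Or.inl ⟨hy, fun h' => h ?_⟩
        obtain ⟨j, hj⟩ := mem_iUnion.1 h'
        exact mem_iUnion.2 ⟨j, interior_subset hj⟩
  have hCκ : ∀ j : J', ∀ x ∈ C j, ∃ p ∈ chA.toFun '' E' j, ∃ t ∈ Ioc (c / 2) c,
      x = κ.toFun (p, t) := by
    intro j x hx
    obtain ⟨⟨p, t⟩, ⟨hp, ht⟩, rfl⟩ := hC2 j hx
    exact ⟨p, hp, t, ht, rfl⟩
  obtain ⟨hball, -⟩ := ConBall.replace_cells (n := 2) (m := 2) (J := J') gP hPcl hPc'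
    (E' := fun j => D j) (e' := fun j => frontier (D j)) (C := C)
    (fun j => SCH.conBall_of_ambDisc (hD j)) hC1
    (fun j => by
      ext y
      constructor
      · rintro ⟨h1, h2⟩
        exact ⟨subset_closure h1, fun h => h2.2 (mem_iUnion.2 ⟨j, h⟩)⟩
      · intro hy
        exact ⟨hfD j hy, hfP j hy⟩)
    (fun j => by
      ext x
      constructor
      · rintro ⟨h1, y, hy, rfl⟩
        obtain ⟨p, hp, t, ht, he⟩ := hCκ j _ h1
        have he' : g.toFun y = κ.toFun (p, t) := he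
        have htc := hPκ y hy p (FO_subset (hBsub j hp)) t ⟨by linarith [ht.1, hc.1], ht.2⟩ he'
        have hpX : (p, t) ∈ FA ×ˢ Icc (-1:ℝ) 1 :=
          ⟨FO_subset (hBsub j hp), by linarith [ht.1, hc.1], ht.2.trans hc.2.le⟩
        have h3 := hC3 j p t hpX (he ▸ h1) htc
        show g.toFun y ∈ g.toFun '' frontier (D j)
        rw [← hEi j, he', htc]
        exact ⟨(p, c), ⟨h3, rfl⟩, rfl⟩
      · rintro ⟨y, hy, rfl⟩
        exact ⟨(hC1 j).1 ⟨y, hy, rfl⟩, ⟨y, hfP j hy, rfl⟩⟩)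
    (fun i j hij x hx => by
      exact absurd hx.2 (Set.disjoint_left.1 (hJ2 i i.2 j j.2 fun h => hij (Subtype.ext h)) hx.1))
    (fun i j hij x hx => absurd hx.2 (Set.disjoint_left.1 (hC4 i j hij) hx.1))
    hf₀P (by rw [hPU]; exact SCH.conBall_of_ambDisc (hD i₀))
  have hEi₀' : gP.toFun '' frontier (D i₀) = κ.toFun '' ((chA.toFun '' frontier (E' i₀)) ×ˢ {c}) :=
    (hEi i₀).symm
  rw [hEi₀'] at hball
  refine ⟨c, hc, E' i₀, hE' i₀, hEb i₀, hEf i₀, hEi₀, _, hball, ?_, ?_, ?_, ?_, ?_⟩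
  · rintro x (⟨y, hy, rfl⟩ | hx)
    · exact hPO y hy
    · obtain ⟨j, hj⟩ := mem_iUnion.1 hx
      obtain ⟨p, hp, t, ht, rfl⟩ := hCκ j x hj
      exact H.hpos p (FO_subset (hBsub j hp)) t ⟨by linarith [ht.1, hc.1], ht.2.trans hc.2.le⟩
  · rintro x (⟨y, hy, rfl⟩ | hx)
    · exact Or.inl (g.mapsTo (hPQ hy))
    · obtain ⟨j, hj⟩ := mem_iUnion.1 hx
      obtain ⟨p, hp, t, ht, rfl⟩ := hCκ j x hj
      exact Or.inr ⟨(p, t), ⟨FO_subset (hBsub j hp), by linarith [ht.1, hc.1],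
        ht.2.trans hc.2.le⟩, rfl⟩
  · rintro p hp t ht (⟨y, hy, he⟩ | hx)
    · have := hPκ y hy p hp t ⟨ht.1, by linarith [ht.2, hc.1]⟩ he
      linarith [ht.2, hc.1]
    · obtain ⟨j, hj⟩ := mem_iUnion.1 hx
      obtain ⟨q, hq, s, hs, he⟩ := hCκ j _ hj
      have := κ.injOn (show (p, t) ∈ FA ×ˢ Icc (-1:ℝ) 1 from ⟨hp, by linarith [ht.1],
        by linarith [ht.2, hc.1, hc.2]⟩) (show (q, s) ∈ FA ×ˢ Icc (-1:ℝ) 1 from
        ⟨FO_subset (hBsub j hq), by linarith [hs.1, hc.1], hs.2.trans hc.2.le⟩) he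
      have h2 : t = s := congrArg Prod.snd this
      linarith [hs.1, ht.2]
  · rintro _ ⟨x, hx, rfl⟩ t ht (⟨y, hy, he⟩ | hx')
    · exact hPκ y hy _ (FO_subset (chA_mem_FO (hEf i₀ x hx))) t ⟨by linarith [ht.1, hc.1], ht.2⟩ he
    · exfalso
      obtain ⟨j, hj⟩ := mem_iUnion.1 hx'
      obtain ⟨_, ⟨w, hw, rfl⟩, s, hs, he⟩ := hCκ j _ hj
      have hwn := hEA j j.2 w hw
      have := κ.injOn (show (chA.toFun x, t) ∈ FA ×ˢ Icc (-1:ℝ) 1 from
        ⟨FO_subset (chA_mem_FO (hEf i₀ x hx)), by linarith [ht.1, hc.1], ht.2.trans hc.2.le⟩)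
        (show (chA.toFun w, s) ∈ FA ×ˢ Icc (-1:ℝ) 1 from
        ⟨FO_subset (chA_mem_FO hwn), by linarith [hs.1, hc.1], hs.2.trans hc.2.le⟩) he
      have h2 : x = w := chA.injOn (hAnn (hEf i₀ x hx)) (hAnn hwn) (congrArg Prod.fst this)
      subst h2
      have hne : (j : J) ≠ i₀ := fun h => hi₀ (h ▸ j.2)
      rcases hnest j i₀ hne with h | h | h
      · exact hx.2 (h hw)
      · have h0 : (0 : ℝ × ℝ) ∈ E' i₀ := interior_subset (hEi₀ (by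
          rw [mem_closedBall_zero_iff, norm_zero]; norm_num))
        have := hEA j j.2 0 (interior_subset (h h0))
        rw [norm_zero] at this
        linarith [this.1]
      · exact Set.disjoint_left.1 h hw (hfE i₀ hx)
  · rintro M hM hMc h0M hMN _ ⟨y, hy, rfl⟩
    obtain ⟨h1, h2⟩ := hK M hM hMc h0M (fun y hy h => hMN y hy (hNsub h))
    refine Or.inl ⟨y, ⟨interior_subset (h1 hy), fun h => ?_⟩, rfl⟩
    obtain ⟨j, hj⟩ := mem_iUnion.1 h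
    exact Set.disjoint_left.1 (h2 j j.2) hy (interior_subset hj)

end P073.PA260
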