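import Vale.Agent.P073.PA260.Collar
import Vale.Agent.P073.Sep

/-!
# P073, block PA (helper260): the ESSENTIAL TEST

`γ₀` is the boundary of a ball `E₀` in `ℝⁿ` (`n = 2`), `τ` moves the points of `γ₀` a little and
`v ∘ τ` is close to `y ↦ y - m`.

* `notMem_of_bounds`: if `γ' = τ γ₀` bounds a ball on which `v` does not vanish, then `m ∉ E₀`.
* `mem_of_essential`: if `γ'` is essential in the standard annulus, then `m ∈ E₀`.
-/

open Set Metric Topology Filter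
open Vale.Agent.P073.Sep (ExtNV not_extNV_of_mem)

namespace P073

variable {G : Type*} [NormedAddCommGroup G] [NormedSpace ℝ G] {n : ℕ}

theorem notMem_of_bounds {E₀ γ₀ : Set (Fin n → ℝ)} (hE₀ : ConBall n E₀ γ₀)
    (hfr : frontier E₀ ⊆ γ₀) {E' γ' : Set G} (hE' : ConBall n E' γ') (τ : ConHomeo γ₀ γ')
    {v : G → (Fin n → ℝ)} (hv : ContinuousOn v E') (hv0 : ∀ x ∈ E', v x ≠ 0) {m : Fin n → ℝ}
    (hclose : ∀ y ∈ γ₀, ‖(y - m) - v (τ.toFun y)‖ ≤ ‖v (τ.toFun y)‖ / 2) : m ∉ E₀ := by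
  intro hm
  obtain ⟨Φ, hΦ, -⟩ := hE₀.exists_extend hE' τ
  have h1 : ExtNV E₀ γ₀ (fun y => v (τ.toFun y)) :=
    ⟨fun y => v (Φ.toFun y), hv.comp Φ.cont Φ.mapsTo, fun y hy => hv0 _ (Φ.mapsTo hy),
      fun y hy => by show v (Φ.toFun y) = v (τ.toFun y); rw [hΦ hy]⟩
  have hτE : MapsTo τ.toFun γ₀ E' := fun y hy => hE'.1 (τ.mapsTo hy)
  have h2 : ExtNV E₀ γ₀ (fun y => y - m) :=
    ExtNV.close hE₀.isCompact_bdry.isClosed (by fun_prop) (hv.comp τ.cont hτE) hclose hE₀.1 h1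
  exact not_extNV_of_mem hE₀.isCompact hfr hm h2

/-- the standard annulus -/
def stdAnn (n : ℕ) : Set (Fin n → ℝ) := {x | ‖x‖ ∈ Icc (1 / 2 : ℝ) 1}

theorem isClosed_stdAnn (n : ℕ) : IsClosed (stdAnn n) :=
  (isClosed_Icc (a := (1/2:ℝ)) (b := 1)).preimage continuous_norm

theorem mem_of_essential {E₀ γ₀ : Set (Fin n → ℝ)} (hE₀ : ConBall n E₀ γ₀)
    {E' γ' : Set (Fin n → ℝ)} (hE' : ConBall n E' γ') (hfr' : frontier E' ⊆ γ')
    (hball : E' ⊆ ball 0 1) (hess : closedBall 0 1 ⊆ E' ∪ stdAnn n) (hγ' : γ' ⊆ stdAnn n)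
    (τ : ConHomeo γ₀ γ') {v : (Fin n → ℝ) → (Fin n → ℝ)} (hv : ContinuousOn v (stdAnn n))
    (hv0 : ∀ x ∈ stdAnn n, v x ≠ 0) {Δ₀ ζ₀ : Set (Fin n → ℝ)} (hΔ : ConBall n Δ₀ ζ₀)
    (hfrΔ : frontier Δ₀ ⊆ ζ₀) {m : Fin n → ℝ} (hmΔ : m ∈ Δ₀)
    (σ : ConHomeo (sphere (0 : Fin n → ℝ) 1) ζ₀) (hσ : ∀ x ∈ sphere (0 : Fin n → ℝ) 1,
      v x = σ.toFun x - m)
    (hclose : ∀ y ∈ γ₀, ‖v (τ.toFun y) - (y - m)‖ ≤ ‖y - m‖ / 2) : m ∈ E₀ := by
  classical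
  by_contra hm
  have h1 : ExtNV E₀ γ₀ (fun y => y - m) :=
    ⟨fun y => y - m, by fun_prop, fun y hy h0 => hm (by rwa [← sub_eq_zero.1 h0]),
      fun y _ => rfl⟩
  have hτA : MapsTo τ.toFun γ₀ (stdAnn n) := fun y hy => hγ' (τ.mapsTo hy)
  obtain ⟨U₀, hU1, hU2, hU3⟩ : ExtNV E₀ γ₀ (fun y => v (τ.toFun y)) :=
    ExtNV.close hE₀.isCompact_bdry.isClosed (hv.comp τ.cont hτA) (by fun_prop) hclose hE₀.1 h1
  obtain ⟨Φ, hΦ, hΦβ⟩ := hE₀.exists_extend hE' τ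
  -- the extension to `E'`
  have hUE' : ContinuousOn (fun x => U₀ (Φ.invFun x)) E' := hU1.comp Φ.cont_inv Φ.mapsTo_inv
  have hUγ : ∀ x ∈ γ', U₀ (Φ.invFun x) = v x := by
    intro x hx
    rw [← hΦβ] at hx
    obtain ⟨y, hy, rfl⟩ := hx
    rw [Φ.left_inv (hE₀.1 hy), hU3 y hy, hΦ hy]
  let W : (Fin n → ℝ) → (Fin n → ℝ) := fun x => if x ∈ E' then U₀ (Φ.invFun x) else v x
  have hWE : ∀ x ∈ E', W x = U₀ (Φ.invFun x) := fun x hx => if_pos hx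
  have hWn : ∀ x ∉ E', W x = v x := fun x hx => if_neg hx
  have hWA : ∀ x ∈ stdAnn n \ interior E', W x = v x := by
    intro x hx
    by_cases hxE : x ∈ E'
    · have : x ∈ frontier E' := ⟨subset_closure hxE, hx.2⟩
      rw [hWE x hxE, hUγ x (hfr' this)]
    · exact hWn x hxE
  have hcl2 : IsClosed (stdAnn n \ interior E') := (isClosed_stdAnn n).sdiff isOpen_interior
  have hWc : ContinuousOn W (E' ∪ (stdAnn n \ interior E')) := by
    refine ContinuousOn.union_of_isClosed ?_ ?_ hE'.isClosed hcl2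
    · exact hUE'.congr hWE
    · exact (hv.mono sdiff_subset).congr hWA
  have hcover : closedBall (0 : Fin n → ℝ) 1 ⊆ E' ∪ (stdAnn n \ interior E') := by
    intro x hx
    by_cases hxE : x ∈ E'
    · exact Or.inl hxE
    · refine Or.inr ⟨?_, fun h => hxE (interior_subset h)⟩
      exact (hess hx).resolve_left hxE
  have hW0 : ∀ x ∈ closedBall (0 : Fin n → ℝ) 1, W x ≠ 0 := by
    intro x hx
    by_cases hxE : x ∈ E'
    · rw [hWE x hxE]; exact hU2 _ (Φ.mapsTo_inv hxE)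
    · rw [hWn x hxE]
      exact hv0 x ((hess hx).resolve_left hxE)
  -- transport to `Δ₀`
  have hstd : ConBall n (closedBall (0 : Fin n → ℝ) 1) (sphere 0 1) :=
    ⟨sphere_subset_closedBall, ConHomeo.refl (locCone_closedBall_pi n 1).conicalSet, by
      ext x; constructor
      · rintro ⟨y, hy, rfl⟩; exact hy
      · intro hx; exact ⟨x, hx, rfl⟩⟩
  obtain ⟨Ψ, hΨ, hΨβ⟩ := hstd.exists_extend hΔ σ
  refine not_extNV_of_mem hΔ.isCompact hfrΔ hmΔ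
    ⟨fun z => W (Ψ.invFun z), (hWc.mono hcover).comp Ψ.cont_inv Ψ.mapsTo_inv,
      fun z hz => hW0 _ (Ψ.mapsTo_inv hz), fun z hz => ?_⟩
  rw [← hΨβ] at hz
  obtain ⟨x, hx, rfl⟩ := hz
  simp only
  rw [Ψ.left_inv (sphere_subset_closedBall hx), hΨ hx, ← hσ x hx]
  refine hWn x fun h => ?_
  have h1 := hball h
  rw [mem_ball_zero_iff] at h1
  rw [mem_sphere_zero_iff_norm] at hx
  linarith

/-- the map `v` for the annulus `ζ × [1/2, 1]` over a sphere `ζ = σ (S)` -/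
noncomputable def annV (σ : (Fin n → ℝ) → (Fin n → ℝ)) (m : Fin n → ℝ) (x : Fin n → ℝ) :
    Fin n → ℝ := σ (fun i => annI ‖x‖ (x i)) - m

theorem continuousOn_annV {ζ₀ : Set (Fin n → ℝ)} (σ : ConHomeo (sphere (0 : Fin n → ℝ) 1) ζ₀)
    (m : Fin n → ℝ) : ContinuousOn (annV σ.toFun m) (stdAnn n) := by
  refine ContinuousOn.sub (σ.cont.comp ?_ fun x hx =>
    mem_sphere_zero_iff_norm.2 (norm_annI hx)) continuousOn_const
  refine Continuous.continuousOn ?_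
  unfold annI
  fun_prop

theorem annV_ne_zero {ζ₀ : Set (Fin n → ℝ)} (σ : ConHomeo (sphere (0 : Fin n → ℝ) 1) ζ₀)
    {m : Fin n → ℝ} (hm : m ∉ ζ₀) {x : Fin n → ℝ} (hx : x ∈ stdAnn n) :
    annV σ.toFun m x ≠ 0 := by
  intro h
  have h1 := σ.mapsTo (mem_sphere_zero_iff_norm.2 (norm_annI hx))
  rw [sub_eq_zero.1 h] at h1
  exact hm h1

theorem annV_sphere {σ : (Fin n → ℝ) → (Fin n → ℝ)} {m x : Fin n → ℝ}
    (hx : x ∈ sphere (0 : Fin n → ℝ) 1) : annV σ m x = σ x - m := by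
  unfold annV
  have hx1 := mem_sphere_zero_iff_norm.1 hx
  congr 2
  funext i
  rw [hx1]
  have h1 := annR_one (annI 1 (x i))
  rw [annR_annI le_rfl] at h1
  exact h1.symm

end P073
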