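import Vale.Agent.P073.PA260.DiscB
import Vale.Agent.P073.PA285.Asm

/-!
# P073, block PA (helper260): the essential test with segments
-/

open Set Metric Topology Filter
open Vale.Agent.P073.Sep (ExtNV not_extNV_of_mem)

namespace P073

variable {G : Type*} [NormedAddCommGroup G] [NormedSpace ℝ G] {n : ℕ}

open H339 (pairHomeo pairHomeo_image_closedBall pairHomeo_image_sphere conSphere_iff
  pairHomeo_norm pairHomeo_inv_norm conicalSet_sphere_prod)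

theorem extNV_of_segment {T X : Set (Fin n → ℝ)} (hT : IsCompact T) (hTX : T ⊆ X)
    {φ ψ : (Fin n → ℝ) → (Fin n → ℝ)} (hφ : ContinuousOn φ T) (hψ : ContinuousOn ψ T)
    (hseg : ∀ y ∈ T, (0 : Fin n → ℝ) ∉ segment ℝ (φ y) (ψ y)) (h : ExtNV X T φ) :
    ExtNV X T ψ := by
  have h0 : ExtNV X T ((fun (s : ℝ) (y : Fin n → ℝ) => (1 - s) • φ y + s • ψ y) 0) := by
    obtain ⟨Φ, h1, h2, h3⟩ := h
    refine ⟨Φ, h1, h2, fun t ht => ?_⟩
    rw [h3 t ht]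
    simp
  have h1 := ExtNV.homotopy (H := fun (s : ℝ) (y : Fin n → ℝ) => (1 - s) • φ y + s • ψ y) hT hTX
    ?_ ?_ h0
  · obtain ⟨Φ, h1, h2, h3⟩ := h1
    refine ⟨Φ, h1, h2, fun t ht => ?_⟩
    rw [h3 t ht]
    simp
  · have hφ' : ContinuousOn (fun z : ℝ × (Fin n → ℝ) => φ z.2) (Icc 0 1 ×ˢ T) :=
      hφ.comp continuousOn_snd fun z hz => hz.2
    have hψ' : ContinuousOn (fun z : ℝ × (Fin n → ℝ) => ψ z.2) (Icc 0 1 ×ˢ T) :=
      hψ.comp continuousOn_snd fun z hz => hz.2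
    have h3 : ContinuousOn (fun z : ℝ × (Fin n → ℝ) => 1 - z.1) (Icc 0 1 ×ˢ T) := by fun_prop
    exact (h3.smul hφ').add (continuousOn_fst.smul hψ')
  · intro s hs t ht h4
    refine hseg t ht ⟨1 - s, s, by linarith [hs.2], hs.1, by ring, h4⟩

theorem notMem_of_bounds_seg {E₀ γ₀ : Set (Fin n → ℝ)} (hE₀ : ConBall n E₀ γ₀)
    (hfr : frontier E₀ ⊆ γ₀) {E' γ' : Set G} (hE' : ConBall n E' γ') (τ : ConHomeo γ₀ γ')
    {v : G → (Fin n → ℝ)} (hv : ContinuousOn v E') (hv0 : ∀ x ∈ E', v x ≠ 0)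
    (hseg : ∀ y ∈ γ₀, (0 : Fin n → ℝ) ∉ segment ℝ y (v (τ.toFun y))) :
    (0 : Fin n → ℝ) ∉ E₀ := by
  intro hm
  obtain ⟨Φ, hΦ, -⟩ := hE₀.exists_extend hE' τ
  have h1 : ExtNV E₀ γ₀ (fun y => v (τ.toFun y)) :=
    ⟨fun y => v (Φ.toFun y), hv.comp Φ.cont Φ.mapsTo, fun y hy => hv0 _ (Φ.mapsTo hy),
      fun y hy => by show v (Φ.toFun y) = v (τ.toFun y); rw [hΦ hy]⟩
  have hτE : MapsTo τ.toFun γ₀ E' := fun y hy => hE'.1 (τ.mapsTo hy)
  have h2 : ExtNV E₀ γ₀ (fun y => y - 0) :=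
    extNV_of_segment hE₀.isCompact_bdry hE₀.1 (hv.comp τ.cont hτE) (by fun_prop)
      (fun y hy h => hseg y hy (by
        rw [segment_symm]; simpa using h)) h1
  exact not_extNV_of_mem hE₀.isCompact hfr hm h2

theorem mem_of_essential_seg {E₀ γ₀ : Set (Fin n → ℝ)} (hE₀ : ConBall n E₀ γ₀)
    {E' γ' : Set (Fin n → ℝ)} (hE' : ConBall n E' γ') (hfr' : frontier E' ⊆ γ')
    (hball : E' ⊆ ball 0 1) (hess : closedBall 0 1 ⊆ E' ∪ stdAnn n) (hγ' : γ' ⊆ stdAnn n)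
    (τ : ConHomeo γ₀ γ') {v : (Fin n → ℝ) → (Fin n → ℝ)} (hv : ContinuousOn v (stdAnn n))
    (hv0 : ∀ x ∈ stdAnn n, v x ≠ 0) {Δ₀ ζ₀ : Set (Fin n → ℝ)} (hΔ : ConBall n Δ₀ ζ₀)
    (hfrΔ : frontier Δ₀ ⊆ ζ₀) (hmΔ : (0 : Fin n → ℝ) ∈ Δ₀)
    (σ : ConHomeo (sphere (0 : Fin n → ℝ) 1) ζ₀) (hσ : ∀ x ∈ sphere (0 : Fin n → ℝ) 1,
      v x = σ.toFun x)
    (hseg : ∀ y ∈ γ₀, (0 : Fin n → ℝ) ∉ segment ℝ y (v (τ.toFun y))) :
    (0 : Fin n → ℝ) ∈ E₀ := by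
  classical
  by_contra hm
  have h1 : ExtNV E₀ γ₀ (fun y => y) :=
    ⟨fun y => y, by fun_prop, fun y hy h0 => hm (h0 ▸ hy), fun y _ => rfl⟩
  have hτA : MapsTo τ.toFun γ₀ (stdAnn n) := fun y hy => hγ' (τ.mapsTo hy)
  obtain ⟨U₀, hU1, hU2, hU3⟩ : ExtNV E₀ γ₀ (fun y => v (τ.toFun y)) :=
    extNV_of_segment hE₀.isCompact_bdry hE₀.1 (by fun_prop) (hv.comp τ.cont hτA) hseg h1
  obtain ⟨Φ, hΦ, hΦβ⟩ := hE₀.exists_extend hE' τ
  -- the extension to `E'`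
  have hUE' : ContinuousOn (fun x => U₀ (Φ.invFun x)) E' := hU1.comp Φ.cont_inv Φ.mapsTo_inv
  have hUγ : ∀ x ∈ γ', U₀ (Φ.invFun x) = v x := by
    intro x hx
    rw [← hΦβ] at hx
    obtain ⟨y, hy, rfl⟩ := hx
    rw [Φ.left_inv (hE₀.1 hy), hU3 y hy, hΦ hy]
  let W : (Fin n → ℝ) → (Fin n → ℝ) := fun x => if x ∈ E' then U₀ (Φ.invFun x) else v x
  have hWE : ∀ x ∈ E', W x = U₀ (Φ.invFun x) := fun x hx => if_pos hx
  have hWn : ∀ x ∉ E', W x = v x := fun x hx => if_neg hx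
  have hWA : ∀ x ∈ stdAnn n \ interior E', W x = v x := by
    intro x hx
    by_cases hxE : x ∈ E'
    · have : x ∈ frontier E' := ⟨subset_closure hxE, hx.2⟩
      rw [hWE x hxE, hUγ x (hfr' this)]
    · exact hWn x hxE
  have hcl2 : IsClosed (stdAnn n \ interior E') := (isClosed_stdAnn n).sdiff isOpen_interior
  have hWc : ContinuousOn W (E' ∪ (stdAnn n \ interior E')) := by
    refine ContinuousOn.union_of_isClosed ?_ ?_ hE'.isClosed hcl2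
    · exact hUE'.congr hWE
    · exact (hv.mono sdiff_subset).congr hWA
  have hcover : closedBall (0 : Fin n → ℝ) 1 ⊆ E' ∪ (stdAnn n \ interior E') := by
    intro x hx
    by_cases hxE : x ∈ E'
    · exact Or.inl hxE
    · refine Or.inr ⟨?_, fun h => hxE (interior_subset h)⟩
      exact (hess hx).resolve_left hxE
  have hW0 : ∀ x ∈ closedBall (0 : Fin n → ℝ) 1, W x ≠ 0 := by
    intro x hx
    by_cases hxE : x ∈ E'
    · rw [hWE x hxE]; exact hU2 _ (Φ.mapsTo_inv hxE)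
    · rw [hWn x hxE]
      exact hv0 x ((hess hx).resolve_left hxE)
  -- transport to `Δ₀`
  have hstd : ConBall n (closedBall (0 : Fin n → ℝ) 1) (sphere 0 1) :=
    ⟨sphere_subset_closedBall, ConHomeo.refl (locCone_closedBall_pi n 1).conicalSet, by
      ext x; constructor
      · rintro ⟨y, hy, rfl⟩; exact hy
      · intro hx; exact ⟨x, hx, rfl⟩⟩
  obtain ⟨Ψ, hΨ, hΨβ⟩ := hstd.exists_extend hΔ σ
  refine not_extNV_of_mem hΔ.isCompact hfrΔ hmΔ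
    ⟨fun z => W (Ψ.invFun z), (hWc.mono hcover).comp Ψ.cont_inv Ψ.mapsTo_inv,
      fun z hz => hW0 _ (Ψ.mapsTo_inv hz), fun z hz => ?_⟩
  rw [← hΨβ] at hz
  obtain ⟨x, hx, rfl⟩ := hz
  simp only
  rw [Ψ.left_inv (sphere_subset_closedBall hx), hΨ hx, sub_zero, ← hσ x hx]
  refine hWn x fun h => ?_
  have h1 := hball h
  rw [mem_ball_zero_iff] at h1
  rw [mem_sphere_zero_iff_norm] at hx
  linarith

/-! ### the planar forms -/

theorem notMem_of_bounds₂_seg {D₀ : Set (ℝ × ℝ)} (hD₀ : AmbDisc D₀)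
    {E' γ' : Set G} (hE' : ConBall 2 E' γ') (τ : ConHomeo (frontier D₀) γ')
    {v : G → (Fin 2 → ℝ)} (hv : ContinuousOn v E') (hv0 : ∀ x ∈ E', v x ≠ 0)
    (hseg : ∀ y ∈ frontier D₀, (0 : Fin 2 → ℝ) ∉ segment ℝ (pairHomeo.toFun y)
      (v (τ.toFun y))) : (0 : ℝ × ℝ) ∉ D₀ := by
  have hb := (SCH.conBall_of_ambDisc hD₀).image pairHomeo (subset_univ _)
  have hγc : ConicalSet (frontier D₀) := (SCH.conBall_of_ambDisc hD₀).conicalSet_bdry
  intro hm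
  refine notMem_of_bounds_seg (v := v) hb
    (frontier_pairHomeo D₀).subset hE' ((pairHomeo.restr hγc (subset_univ _)).symm.trans τ)
    hv hv0 ?_ ⟨0, hm, ?_⟩
  · rintro _ ⟨y, hy, rfl⟩
    show (0 : Fin 2 → ℝ) ∉ segment ℝ (pairHomeo.toFun y)
      (v (τ.toFun (pairHomeo.invFun (pairHomeo.toFun y))))
    rw [pairHomeo.left_inv (mem_univ y)]
    exact hseg y hy
  · exact norm_eq_zero.1 ((pairHomeo_norm 0).trans norm_zero)

theorem polar_fst_eq {x : ℝ × ℝ} : pairHomeo.toFun (polar.toFun x).1 =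
    fun i => annI ‖pairHomeo.toFun x‖ (pairHomeo.toFun x i) := pairHomeo_polar_fst x

theorem mem_of_essential₂_seg {D₀ : Set (ℝ × ℝ)} (hD₀ : AmbDisc D₀)
    {E' : Set (ℝ × ℝ)} (hE' : AmbDisc E')
    (hball : E' ⊆ ball 0 1) (hess : closedBall 0 (1 / 2) ⊆ E') (hγA : frontier E' ⊆ Ann)
    (τ : ConHomeo (frontier D₀) (frontier E')) {Δ ζ : Set (Fin 2 → ℝ)} (hΔ : ConBall 2 Δ ζ)
    (h0Δ : (0 : Fin 2 → ℝ) ∈ Δ) (h0ζ : (0 : Fin 2 → ℝ) ∉ ζ)
    (z : ConHomeo (sphere (0 : Fin 2 → ℝ) 1) ζ)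
    (hseg : ∀ y ∈ frontier D₀, (0 : Fin 2 → ℝ) ∉ segment ℝ (pairHomeo.toFun y)
      (z.toFun (pairSph.toFun (polar.toFun (τ.toFun y)).1))) : (0 : ℝ × ℝ) ∈ D₀ := by
  have hb := (SCH.conBall_of_ambDisc hD₀).image pairHomeo (subset_univ _)
  have hb' := (SCH.conBall_of_ambDisc hE').image pairHomeo (subset_univ _)
  have hγc : ConicalSet (frontier D₀) := (SCH.conBall_of_ambDisc hD₀).conicalSet_bdry
  have hγc' : ConicalSet (frontier E') := (SCH.conBall_of_ambDisc hE').conicalSet_bdry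
  have hfrΔ : frontier Δ ⊆ ζ := by
    intro x hx
    by_contra hn
    have hxΔ : x ∈ Δ := hΔ.isClosed.frontier_subset hx
    have h1 : x ∈ interior Δ := by
      rw [mem_interior]
      exact ⟨Δ \ ζ, sdiff_subset, hΔ.isOpen_diff, hxΔ, hn⟩
    exact hx.2 h1
  have hp0 : pairHomeo.toFun (0 : ℝ × ℝ) = 0 :=
    norm_eq_zero.1 ((pairHomeo_norm 0).trans norm_zero)
  have hmain := mem_of_essential_seg (v := annV z.toFun 0) hb hb' (frontier_pairHomeo E').subset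
    ?_ ?_ ?_ (((pairHomeo.restr hγc (subset_univ _)).symm.trans τ).trans
      (pairHomeo.restr hγc' (subset_univ _))) (continuousOn_annV z _)
    (fun x hx => annV_ne_zero z h0ζ hx) hΔ hfrΔ h0Δ z (fun x hx => by
      rw [annV_sphere hx, sub_zero]) ?_
  · obtain ⟨y, hy, hym⟩ := hmain
    rw [← hp0] at hym
    rwa [← pairHomeo.injOn (mem_univ _) (mem_univ _) hym]
  · rintro _ ⟨x, hx, rfl⟩
    rw [mem_ball_zero_iff, pairHomeo_norm]
    exact mem_ball_zero_iff.1 (hball hx)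
  · intro x hx
    rw [← pairHomeo_image_closedBall 1] at hx
    obtain ⟨p, hp, rfl⟩ := hx
    rw [mem_closedBall_zero_iff] at hp
    rcases le_total ‖p‖ (1 / 2) with h | h
    · exact Or.inl ⟨p, hess (mem_closedBall_zero_iff.2 h), rfl⟩
    · right
      show ‖pairHomeo.toFun p‖ ∈ Icc (1 / 2 : ℝ) 1
      rw [pairHomeo_norm]; exact ⟨h, hp⟩
  · rintro _ ⟨x, hx, rfl⟩
    show ‖pairHomeo.toFun x‖ ∈ Icc (1 / 2 : ℝ) 1
    rw [pairHomeo_norm]; exact hγA hx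
  · rintro _ ⟨y, hy, rfl⟩
    show (0 : Fin 2 → ℝ) ∉ segment ℝ (pairHomeo.toFun y)
      (annV z.toFun 0 (pairHomeo.toFun (τ.toFun (pairHomeo.invFun (pairHomeo.toFun y)))))
    rw [pairHomeo.left_inv (mem_univ y)]
    have e1 : annV z.toFun 0 (pairHomeo.toFun (τ.toFun y)) =
        z.toFun (pairSph.toFun (polar.toFun (τ.toFun y)).1) := by
      show z.toFun (fun i => annI ‖pairHomeo.toFun (τ.toFun y)‖
        (pairHomeo.toFun (τ.toFun y) i)) - 0 = _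
      rw [← pairHomeo_polar_fst, sub_zero]
      rfl
    rw [e1]
    exact hseg y hy

end P073
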