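import Vale.Agent.P073.PA260.Caps

/-!
# P073, block PA (helper260): LEG

Starting from a disc `D₁` with boundary `κ (c × {s₃})`, add collars in the bicollar `κ` of the
surface `F`: down from level `s₃` to `s₂` over `c`, at level `s₂` from `c` to `c₁`, down to the
level `s₁` over `c₁`, at level `s₁` from `c₁` to `ζ`, down to the level `s₀` over `ζ`.
-/

open Set Metric Topology Filter

namespace P073

variable {E G H : Type*} [NormedAddCommGroup E] [NormedSpace ℝ E]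
  [NormedAddCommGroup G] [NormedSpace ℝ G] [NormedAddCommGroup H] [NormedSpace ℝ H]

/-- adding a collar, with a parametrisation of the boundary -/
theorem ConBall.add_collar' {n : ℕ} {D β : Set G} (hD : ConBall n D β) {γ : Set E}
    (σ : ConHomeo γ β) {L : Set G} (μ : ConHomeo (γ ×ˢ Icc (0:ℝ) 1) L)
    (h0 : ∀ y ∈ γ, μ.toFun (y, 0) = σ.toFun y) (hLD : L ∩ D ⊆ β) :
    ConBall n (D ∪ L) (μ.toFun '' (γ ×ˢ {1})) := by
  have h1 := hD.add_collar ((σ.symm.prod (ConHomeo.refl (conicalSet_Icc 0 1))).trans μ)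
    (fun y hy => ?_) hLD
  · have e : ((σ.symm.prod (ConHomeo.refl (conicalSet_Icc 0 1))).trans μ).toFun '' (β ×ˢ {1}) =
        μ.toFun '' (γ ×ˢ {1}) := by
      ext z
      constructor
      · rintro ⟨⟨y, t⟩, ⟨hy, ht⟩, rfl⟩
        rw [mem_singleton_iff] at ht
        refine ⟨(σ.invFun y, 1), ⟨σ.mapsTo_inv hy, rfl⟩, ?_⟩
        show μ.toFun (σ.invFun y, 1) = μ.toFun (σ.invFun y, t)
        simp only at ht
        rw [ht]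
      · rintro ⟨⟨y, t⟩, ⟨hy, ht⟩, rfl⟩
        rw [mem_singleton_iff] at ht
        refine ⟨(σ.toFun y, 1), ⟨σ.mapsTo hy, rfl⟩, ?_⟩
        show μ.toFun (σ.invFun (σ.toFun y), 1) = μ.toFun (y, t)
        simp only at ht
        rw [σ.left_inv hy, ht]
    rwa [e] at h1
  · show μ.toFun (σ.invFun y, 0) = y
    rw [h0 _ (σ.mapsTo_inv hy), σ.right_inv hy]

/-- decreasing affine homeomorphism -/
noncomputable def ConHomeo.affRev {s' s : ℝ} (h : s' < s) : ConHomeo (Icc (0:ℝ) 1) (Icc s' s) where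
  toFun := fun x => s - x * (s - s')
  invFun := fun t => (s - t) / (s - s')
  mapsTo := fun x hx => by
    have h1 : 0 < s - s' := sub_pos.2 h
    constructor <;> nlinarith [hx.1, hx.2]
  mapsTo_inv := fun t ht => by
    have h1 : 0 < s - s' := sub_pos.2 h
    exact ⟨div_nonneg (sub_nonneg.2 ht.2) h1.le, (div_le_one h1).2 (by linarith [ht.1])⟩
  left_inv := fun x _ => by
    have h1 : s - s' ≠ 0 := (sub_pos.2 h).ne'
    field_simp; ring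
  right_inv := fun t _ => by
    have h1 : s - s' ≠ 0 := (sub_pos.2 h).ne'
    field_simp; ring
  cont := by fun_prop
  cont_inv := by fun_prop
  conical := by
    intro x hx
    obtain ⟨r, hr, H⟩ := conicalSet_Icc 0 1 x hx
    refine ⟨r, hr, fun v hv hxv t ht => ⟨H v hv hxv t ht, ?_⟩⟩
    simp only [smul_eq_mul]
    ring

variable {X : Set (E × ℝ)} {N : Set G}

/-- parametrisation of the level `s` over `γ` -/
noncomputable def ConHomeo.level (κ : ConHomeo X N) {γ : Set E} (hγ : ConicalSet γ) (s : ℝ)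
    (hX : γ ×ˢ {s} ⊆ X) : ConHomeo γ (κ.toFun '' (γ ×ˢ {s})) where
  toFun := fun y => κ.toFun (y, s)
  invFun := fun z => (κ.invFun z).1
  mapsTo := fun y hy => ⟨(y, s), ⟨hy, rfl⟩, rfl⟩
  mapsTo_inv := by
    rintro _ ⟨p, hp, rfl⟩
    show (κ.invFun (κ.toFun p)).1 ∈ γ
    rw [κ.left_inv (hX hp)]; exact hp.1
  left_inv := fun y hy => by
    have h1 : (y, s) ∈ γ ×ˢ ({s} : Set ℝ) := ⟨hy, rfl⟩
    show (κ.invFun (κ.toFun (y, s))).1 = y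
    rw [κ.left_inv (hX h1)]
  right_inv := by
    rintro _ ⟨⟨y, t⟩, hp, rfl⟩
    show κ.toFun ((κ.invFun (κ.toFun (y, t))).1, s) = κ.toFun (y, t)
    rw [κ.left_inv (hX hp)]
    have : t = s := hp.2
    rw [this]
  cont := κ.cont.comp (continuousOn_id.prodMk continuousOn_const) fun y hy => hX ⟨hy, rfl⟩
  cont_inv := by
    refine continuousOn_fst.comp (κ.cont_inv.mono ?_) (mapsTo_univ _ _)
    rintro _ ⟨p, hp, rfl⟩
    exact κ.mapsTo (hX hp)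
  conical := by
    have h1 : ConicalOn (fun y : E => (y, s)) γ := (conicalOn_id hγ).prodMk (conicalOn_const s hγ)
    exact ConicalOn.comp (g := κ.toFun) (h := fun y : E => (y, s)) κ.conical h1
      (fun y hy => hX ⟨hy, rfl⟩) (continuousOn_id.prodMk continuousOn_const)

theorem conicalSet_singleton {s : ℝ} : ConicalSet ({s} : Set ℝ) :=
  Convex.conicalSet (convex_singleton s)

/-- **vertical collar** -/
theorem ConBall.add_vertical {n : ℕ} (κ : ConHomeo X N) {D : Set G} {γ : Set E} {s' s : ℝ}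
    (hγ : ConicalSet γ) (hs : s' < s) (hX : γ ×ˢ Icc s' s ⊆ X)
    (hD : ConBall n D (κ.toFun '' (γ ×ˢ {s})))
    (hdis : ∀ y ∈ γ, ∀ t ∈ Icc s' s, κ.toFun (y, t) ∈ D → t = s) :
    ConBall n (D ∪ κ.toFun '' (γ ×ˢ Icc s' s)) (κ.toFun '' (γ ×ˢ {s'})) := by
  have hXs : γ ×ˢ {s} ⊆ X := fun p hp => hX ⟨hp.1, by
    rw [mem_singleton_iff.1 hp.2]; exact ⟨hs.le, le_refl _⟩⟩
  have hcon : ConicalSet (γ ×ˢ Icc s' s) := hγ.prod (conicalSet_Icc _ _)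
  let μ : ConHomeo (γ ×ˢ Icc (0:ℝ) 1) (κ.toFun '' (γ ×ˢ Icc s' s)) :=
    ((ConHomeo.refl hγ).prod (ConHomeo.affRev hs)).trans (κ.restr hcon hX)
  have hμ : ∀ y t, μ.toFun (y, t) = κ.toFun (y, s - t * (s - s')) := fun y t => rfl
  have h1 := hD.add_collar' (κ.level hγ s hXs) μ (fun y hy => by
    rw [hμ, zero_mul, sub_zero]; rfl) (by
    rintro _ ⟨⟨⟨y, t⟩, hp, rfl⟩, hzD⟩
    exact ⟨(y, t), ⟨hp.1, hdis y hp.1 t hp.2 hzD⟩, rfl⟩)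
  have e : μ.toFun '' (γ ×ˢ {1}) = κ.toFun '' (γ ×ˢ {s'}) := by
    ext z
    constructor
    · rintro ⟨⟨y, t⟩, ⟨hy, ht⟩, rfl⟩
      refine ⟨(y, s'), ⟨hy, rfl⟩, ?_⟩
      rw [mem_singleton_iff] at ht
      simp only at ht
      rw [hμ, ht]
      congr 2; ring
    · rintro ⟨⟨y, t⟩, ⟨hy, ht⟩, rfl⟩
      refine ⟨(y, 1), ⟨hy, rfl⟩, ?_⟩
      rw [mem_singleton_iff] at ht
      simp only at ht
      rw [hμ, ht]
      congr 2; ring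
  rwa [e] at h1

/-- **horizontal collar** -/
theorem ConBall.add_horizontal {n : ℕ} (κ : ConHomeo X N) {D : Set G} {γ R : Set E} {s : ℝ}
    (hγ : ConicalSet γ) (ρ : ConHomeo (γ ×ˢ Icc (0:ℝ) 1) R) (hρ : ∀ y ∈ γ, ρ.toFun (y, 0) = y)
    (hX : R ×ˢ {s} ⊆ X)
    (hD : ConBall n D (κ.toFun '' (γ ×ˢ {s})))
    (hdis : ∀ y ∈ R, κ.toFun (y, s) ∈ D → y ∈ γ) :
    ConBall n (D ∪ κ.toFun '' (R ×ˢ {s})) (κ.toFun '' ((ρ.toFun '' (γ ×ˢ {1})) ×ˢ {s})) := by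
  have hγR : γ ⊆ R := fun y hy => by
    have := ρ.mapsTo (show (y, (0:ℝ)) ∈ γ ×ˢ Icc (0:ℝ) 1 from ⟨hy, le_refl _, zero_le_one⟩)
    rwa [hρ y hy] at this
  have hXs : γ ×ˢ {s} ⊆ X := fun p hp => hX ⟨hγR hp.1, hp.2⟩
  let μ : ConHomeo (γ ×ˢ Icc (0:ℝ) 1) (κ.toFun '' (R ×ˢ {s})) :=
    ρ.trans (κ.level ρ.conicalSet_right s hX)
  have hμ : ∀ p, μ.toFun p = κ.toFun (ρ.toFun p, s) := fun p => rfl
  have h1 := hD.add_collar' (κ.level hγ s hXs) μ (fun y hy => by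
    rw [hμ, hρ y hy]; rfl) (by
    rintro _ ⟨⟨⟨y, t⟩, hp, rfl⟩, hzD⟩
    have ht : t = s := hp.2
    subst ht
    exact ⟨(y, t), ⟨hdis y hp.1 hzD, rfl⟩, rfl⟩)
  have e : μ.toFun '' (γ ×ˢ {1}) = κ.toFun '' ((ρ.toFun '' (γ ×ˢ {1})) ×ˢ {s}) := by
    ext z
    constructor
    · rintro ⟨p, hp, rfl⟩
      exact ⟨(ρ.toFun p, s), ⟨⟨p, hp, rfl⟩, rfl⟩, (hμ p).symm⟩
    · rintro ⟨⟨y, t⟩, ⟨⟨p, hp, hpy⟩, ht⟩, rfl⟩
      rw [mem_singleton_iff] at ht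
      simp only at ht hpy
      exact ⟨p, hp, by rw [hμ, ht, hpy]⟩
  rwa [e] at h1

/-- **LEG.** `D₁` is a disc with boundary `κ (c × {s₃})`, disjoint from the levels `[s₀, s₂]` and
meeting `κ (c × [s₂, s₃])` only in its boundary; `ρ₁` is a product structure between `c` and `c'`,
`ρ₂` between `c'` and `ζ`, both in `F`. -/
theorem exists_leg {n : ℕ} (κ : ConHomeo X N) {F c c' ζ R₁ R₂ : Set E} {s₀ s₁ s₂ s₃ : ℝ}
    (h01 : s₀ < s₁) (h12 : s₁ < s₂) (h23 : s₂ < s₃)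
    (hX : F ×ˢ Icc s₀ s₃ ⊆ X)
    (hc : ConicalSet c) (hc' : ConicalSet c')
    (ρ₁ : ConHomeo (c ×ˢ Icc (0:ℝ) 1) R₁) (hρ₁ : ∀ y ∈ c, ρ₁.toFun (y, 0) = y)
    (hρ₁' : ρ₁.toFun '' (c ×ˢ {1}) = c')
    (ρ₂ : ConHomeo (c' ×ˢ Icc (0:ℝ) 1) R₂) (hρ₂ : ∀ y ∈ c', ρ₂.toFun (y, 0) = y)
    (hρ₂' : ρ₂.toFun '' (c' ×ˢ {1}) = ζ) (hR₁ : R₁ ⊆ F) (hR₂ : R₂ ⊆ F)
    {D₁ : Set G} (hD₁ : ConBall n D₁ (κ.toFun '' (c ×ˢ {s₃})))
    (hlow : ∀ y ∈ F, ∀ t ∈ Icc s₀ s₂, κ.toFun (y, t) ∉ D₁)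
    (hside : ∀ y ∈ c, ∀ t ∈ Icc s₂ s₃, κ.toFun (y, t) ∈ D₁ → t = s₃) :
    ∃ D, ConBall n D (κ.toFun '' (ζ ×ˢ {s₀})) ∧ D₁ ⊆ D ∧
      D ⊆ D₁ ∪ κ.toFun '' ((R₁ ∪ R₂) ×ˢ Icc s₀ s₃) ∧
      ∀ y ∈ F, κ.toFun (y, s₀) ∈ D → y ∈ ζ := by
  have hcR : c ⊆ R₁ := fun y hy => by
    have := ρ₁.mapsTo (show (y, (0:ℝ)) ∈ c ×ˢ Icc (0:ℝ) 1 from ⟨hy, le_refl _, zero_le_one⟩)
    rwa [hρ₁ y hy] at this
  have hc'R : c' ⊆ R₁ := by
    rw [← hρ₁']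
    rintro _ ⟨p, hp, rfl⟩
    refine ρ₁.mapsTo ⟨hp.1, ?_⟩
    rw [mem_singleton_iff.1 hp.2]
    exact ⟨zero_le_one, le_refl _⟩
  have hζR : ζ ⊆ R₂ := by
    rw [← hρ₂']
    rintro _ ⟨p, hp, rfl⟩
    refine ρ₂.mapsTo ⟨hp.1, ?_⟩
    rw [mem_singleton_iff.1 hp.2]
    exact ⟨zero_le_one, le_refl _⟩
  have hζ : ConicalSet ζ := by
    rw [← hρ₂']
    exact ρ₂.conicalSet_image (hc'.prod conicalSet_singleton) fun p hp =>
      ⟨hp.1, by rw [mem_singleton_iff.1 hp.2]; exact ⟨zero_le_one, le_refl _⟩⟩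
  have hcF := hcR.trans hR₁
  have hc'F := hc'R.trans hR₁
  have hζF := hζR.trans hR₂
  have inj : ∀ {y y' : E} {t t' : ℝ}, y ∈ F → y' ∈ F → t ∈ Icc s₀ s₃ → t' ∈ Icc s₀ s₃ →
      κ.toFun (y, t) = κ.toFun (y', t') → y = y' ∧ t = t' := by
    intro y y' t t' hy hy' ht ht' h
    have := κ.injOn (hX ⟨hy, ht⟩) (hX ⟨hy', ht'⟩) h
    rwa [Prod.mk.injEq] at this
  -- membership of `κ (y, t)` in a piece
  have mem : ∀ {A : Set E} {I : Set ℝ}, A ⊆ F → I ⊆ Icc s₀ s₃ → ∀ {y : E} {t : ℝ}, y ∈ F →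
      t ∈ Icc s₀ s₃ → κ.toFun (y, t) ∈ κ.toFun '' (A ×ˢ I) → y ∈ A ∧ t ∈ I := by
    rintro A I hA hI y t hy ht ⟨⟨z, u⟩, ⟨hz, hu⟩, he⟩
    obtain ⟨h1, h2⟩ := inj (hA hz) hy (hI hu) ht he
    exact ⟨h1 ▸ hz, h2 ▸ hu⟩
  have i3 : Icc s₂ s₃ ⊆ Icc s₀ s₃ := Icc_subset_Icc (by linarith) le_rfl
  have i2 : ({s₂} : Set ℝ) ⊆ Icc s₀ s₃ := by
    rintro t rfl; exact ⟨by linarith, by linarith⟩
  have i1 : Icc s₁ s₂ ⊆ Icc s₀ s₃ := Icc_subset_Icc (by linarith) (by linarith)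
  have i1' : ({s₁} : Set ℝ) ⊆ Icc s₀ s₃ := by
    rintro t rfl; exact ⟨by linarith, by linarith⟩
  have i0 : Icc s₀ s₁ ⊆ Icc s₀ s₃ := Icc_subset_Icc le_rfl (by linarith)
  have hsub : ∀ {A : Set E} {I : Set ℝ}, A ⊆ F → I ⊆ Icc s₀ s₃ → A ×ˢ I ⊆ X := fun hA hI p hp =>
    hX ⟨hA hp.1, hI hp.2⟩
  -- step 1
  have hD₂ := hD₁.add_vertical κ hc h23 (hsub hcF i3) hside
  set D₂ := D₁ ∪ κ.toFun '' (c ×ˢ Icc s₂ s₃) with hD₂def
  have m2 : ∀ y ∈ F, ∀ t ∈ Icc s₀ s₂, κ.toFun (y, t) ∈ D₂ → y ∈ c ∧ t = s₂ := by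
    intro y hy t ht h
    rcases h with h | h
    · exact absurd h (hlow y hy t ht)
    · obtain ⟨h1, h2⟩ := mem hcF i3 hy ⟨ht.1, ht.2.trans h23.le⟩ h
      exact ⟨h1, le_antisymm ht.2 h2.1⟩
  -- step 2
  have hD₃ := hD₂.add_horizontal κ hc ρ₁ hρ₁ (hsub hR₁ i2) fun y hy h =>
    (m2 y (hR₁ hy) s₂ ⟨by linarith, le_refl _⟩ h).1
  rw [hρ₁'] at hD₃
  set D₃ := D₂ ∪ κ.toFun '' (R₁ ×ˢ {s₂}) with hD₃def
  have m3 : ∀ y ∈ F, ∀ t ∈ Icc s₀ s₂, κ.toFun (y, t) ∈ D₃ → y ∈ R₁ ∧ t = s₂ := by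
    intro y hy t ht h
    rcases h with h | h
    · obtain ⟨h1, h2⟩ := m2 y hy t ht h
      exact ⟨hcR h1, h2⟩
    · exact mem hR₁ i2 hy ⟨ht.1, ht.2.trans h23.le⟩ h
  -- step 3
  have hD₄ := hD₃.add_vertical κ hc' h12 (hsub hc'F i1) fun y hy t ht h =>
    (m3 y (hc'F hy) t ⟨by linarith [ht.1], ht.2⟩ h).2
  set D₄ := D₃ ∪ κ.toFun '' (c' ×ˢ Icc s₁ s₂) with hD₄def
  have m4 : ∀ y ∈ F, ∀ t ∈ Icc s₀ s₁, κ.toFun (y, t) ∈ D₄ → y ∈ c' ∧ t = s₁ := by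
    intro y hy t ht h
    rcases h with h | h
    · obtain ⟨h1, h2⟩ := m3 y hy t ⟨ht.1, ht.2.trans h12.le⟩ h
      exact absurd h2 (by linarith [ht.2])
    · obtain ⟨h1, h2⟩ := mem hc'F i1 hy ⟨ht.1, by linarith [ht.2]⟩ h
      exact ⟨h1, le_antisymm ht.2 h2.1⟩
  -- step 4
  have hD₅ := hD₄.add_horizontal κ hc' ρ₂ hρ₂ (hsub hR₂ i1') fun y hy h =>
    (m4 y (hR₂ hy) s₁ ⟨h01.le, le_refl _⟩ h).1
  rw [hρ₂'] at hD₅
  set D₅ := D₄ ∪ κ.toFun '' (R₂ ×ˢ {s₁}) with hD₅def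
  have hc'R₂ : c' ⊆ R₂ := fun y hy => by
    have := ρ₂.mapsTo (show (y, (0:ℝ)) ∈ c' ×ˢ Icc (0:ℝ) 1 from ⟨hy, le_refl _, zero_le_one⟩)
    rwa [hρ₂ y hy] at this
  have m5 : ∀ y ∈ F, ∀ t ∈ Icc s₀ s₁, κ.toFun (y, t) ∈ D₅ → y ∈ R₂ ∧ t = s₁ := by
    intro y hy t ht h
    rcases h with h | h
    · obtain ⟨h1, h2⟩ := m4 y hy t ht h
      exact ⟨hc'R₂ h1, h2⟩
    · exact mem hR₂ i1' hy ⟨ht.1, by linarith [ht.2]⟩ h
  -- step 5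
  have hD₆ := hD₅.add_vertical κ hζ h01 (hsub hζF i0) fun y hy t ht h =>
    (m5 y (hζF hy) t ht h).2
  refine ⟨_, hD₆, ?_, ?_, ?_⟩
  · intro x hx
    exact Or.inl (Or.inl (Or.inl (Or.inl (Or.inl hx))))
  · rintro x (((((hx | hx) | hx) | hx) | hx) | hx)
    · exact Or.inl hx
    · refine Or.inr (image_mono ?_ hx)
      exact prod_mono (hcR.trans subset_union_left) i3
    · refine Or.inr (image_mono ?_ hx)
      exact prod_mono subset_union_left i2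
    · refine Or.inr (image_mono ?_ hx)
      exact prod_mono (hc'R.trans subset_union_left) i1
    · refine Or.inr (image_mono ?_ hx)
      exact prod_mono subset_union_right i1'
    · refine Or.inr (image_mono ?_ hx)
      exact prod_mono (hζR.trans subset_union_right) i0
  · intro y hy h
    rcases h with h | h
    · have h2 := (m5 y hy s₀ ⟨le_refl _, h01.le⟩ h).2
      exact absurd h2 h01.ne
    · exact (mem hζF i0 hy ⟨le_refl _, by linarith⟩ h).1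

end P073
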