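import Vale.Agent.P073.PA260.Leg
import Vale.Agent.P073.PA260.Ess
import Vale.Agent.P073.SCH.Nest

/-!
# P073, block PA (helper260): adding a ring, planar forms of the annulus and of the essential test
-/

open Set Metric Topology Filter

namespace P073

variable {E G H : Type*} [NormedAddCommGroup E] [NormedSpace ℝ E]
  [NormedAddCommGroup G] [NormedSpace ℝ G] [NormedAddCommGroup H] [NormedSpace ℝ H]

open H339 (pairHomeo pairHomeo_image_closedBall pairHomeo_image_sphere conSphere_iff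
  pairHomeo_norm pairHomeo_inv_norm conicalSet_sphere_prod)

/-- **Adding a ring.** `K = E' ∪ R'` is a ball, `E'` a ball attached to `R'` along `γ'`; `L` is a
conical copy of `R'` attached to the ball `D` along `β = ψ γ'`; then `D ∪ L` is a ball. -/
theorem ConBall.add_ring {n : ℕ} {D β : Set G} (hD : ConBall n D β) {E' γ' R' K bK : Set H}
    (hE' : ConBall n E' γ') (hK : ConBall n K bK) (hKER : E' ∪ R' = K) (hER : E' ∩ R' ⊆ γ')
    (hγR : γ' ⊆ R') (hR : IsClosed R') (hKR : bK ⊆ R') {L : Set G} (ψ : ConHomeo R' L)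
    (hψ : ψ.toFun '' γ' = β) (hLD : L ∩ D ⊆ β) (hL : IsClosed L) :
    ConBall n (D ∪ L) (ψ.toFun '' bK) := by
  have hγ : ConicalSet γ' := hE'.conicalSet_bdry
  let ψγ : ConHomeo γ' β := (ψ.restr hγ hγR).cast rfl hψ
  obtain ⟨Φ, hΦ, hΦβ⟩ := hE'.exists_extend hD ψγ
  have hag : EqOn Φ.toFun ψ.toFun (E' ∩ R') := fun x hx => hΦ (hER hx)
  have himg : D ∩ L ⊆ Φ.toFun '' (E' ∩ R') := by
    rintro y ⟨hy1, hy2⟩
    have hyβ := hLD ⟨hy2, hy1⟩
    rw [← hΦβ] at hyβ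
    obtain ⟨x, hx, rfl⟩ := hyβ
    exact ⟨x, ⟨hE'.1 hx, hγR hx⟩, rfl⟩
  let Ψ := ConHomeo.glue Φ ψ hE'.isClosed hR hD.isClosed hL hag himg
  have h1 := (show ConBall n (E' ∪ R') bK by rw [hKER]; exact hK).image Ψ (Subset.refl _)
  rw [Ψ.image_eq] at h1
  have h2 : EqOn Ψ.toFun ψ.toFun R' := ConHomeo.glue_right Φ ψ hE'.isClosed hR hD.isClosed hL
    hag himg
  rwa [(h2.mono hKR).image_eq] at h1

/-- product of a set with a point -/
noncomputable def ConHomeo.levelR {X : Set (E × ℝ)} {N : Set G} (κ : ConHomeo X N) {R : Set E}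
    {R' : Set H} (α : ConHomeo R' R) (s : ℝ) (hX : R ×ˢ {s} ⊆ X) :
    ConHomeo R' (κ.toFun '' (R ×ˢ {s})) := α.trans (κ.level α.conicalSet_right s hX)

theorem ConHomeo.levelR_apply {X : Set (E × ℝ)} {N : Set G} (κ : ConHomeo X N) {R : Set E}
    {R' : Set H} (α : ConHomeo R' R) (s : ℝ) (hX : R ×ˢ {s} ⊆ X) (x : H) :
    (κ.levelR α s hX).toFun x = κ.toFun (α.toFun x, s) := rfl

/-- image of a relatively closed level -/
theorem image_levelR {X : Set (E × ℝ)} {N : Set G} (κ : ConHomeo X N) {R : Set E}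
    {R' : Set H} (α : ConHomeo R' R) (s : ℝ) (hX : R ×ˢ {s} ⊆ X) (S : Set H) :
    (κ.levelR α s hX).toFun '' S = κ.toFun '' ((α.toFun '' S) ×ˢ {s}) := by
  ext z
  constructor
  · rintro ⟨x, hx, rfl⟩
    exact ⟨(α.toFun x, s), ⟨⟨x, hx, rfl⟩, rfl⟩, rfl⟩
  · rintro ⟨⟨y, t⟩, ⟨⟨x, hx, hxy⟩, ht⟩, rfl⟩
    rw [mem_singleton_iff] at ht
    simp only at ht hxy
    exact ⟨x, hx, by rw [κ.levelR_apply, ht, hxy]⟩

/-! ### The planar annulus -/

/-- the standard annulus in `ℝ × ℝ` -/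
def Ann : Set (ℝ × ℝ) := {x | ‖x‖ ∈ Icc (1 / 2 : ℝ) 1}

theorem isClosed_Ann : IsClosed Ann :=
  (isClosed_Icc (a := (1/2:ℝ)) (b := 1)).preimage continuous_norm

theorem pairHomeo_image_Ann : pairHomeo.toFun '' Ann = {x : Fin 2 → ℝ | ‖x‖ ∈ Icc (1 / 2 : ℝ) 1} := by
  ext v
  constructor
  · rintro ⟨p, hp, rfl⟩
    show ‖pairHomeo.toFun p‖ ∈ Icc (1 / 2 : ℝ) 1
    rw [pairHomeo_norm]; exact hp
  · intro hv
    refine ⟨pairHomeo.invFun v, ?_, pairHomeo.right_inv (mem_univ v)⟩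
    show ‖pairHomeo.invFun v‖ ∈ Icc (1 / 2 : ℝ) 1
    rw [pairHomeo_inv_norm]; exact hv

theorem conicalSet_Ann : ConicalSet Ann := by
  have h1 := (annHomeo 2).conicalSet_right
  have h2 := pairHomeo.symm.conicalSet_image h1 (subset_univ _)
  have e : pairHomeo.symm.toFun '' {x : Fin 2 → ℝ | ‖x‖ ∈ Icc (1 / 2 : ℝ) 1} = Ann := by
    rw [← pairHomeo_image_Ann, image_image]
    have : ∀ x ∈ Ann, pairHomeo.symm.toFun (pairHomeo.toFun x) = x :=
      fun x _ => pairHomeo.left_inv (mem_univ x)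
    rw [image_congr this, image_id']
  rwa [e] at h2

/-- the sphere in the two models of the plane -/
noncomputable def pairSph : ConHomeo (sphere (0 : ℝ × ℝ) 1) (sphere (0 : Fin 2 → ℝ) 1) :=
  (pairHomeo.restr conicalSet_sphere_prod (subset_univ _)).cast rfl (pairHomeo_image_sphere 1)

/-- the annulus in the two models of the plane -/
noncomputable def pairAnn : ConHomeo Ann {x : Fin 2 → ℝ | ‖x‖ ∈ Icc (1 / 2 : ℝ) 1} :=
  (pairHomeo.restr conicalSet_Ann (subset_univ _)).cast rfl pairHomeo_image_Ann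

/-- polar coordinates -/
noncomputable def polar : ConHomeo Ann (sphere (0 : ℝ × ℝ) 1 ×ˢ Icc (1 / 2 : ℝ) 1) :=
  pairAnn.trans ((annHomeo 2).symm.trans
    (pairSph.symm.prod (ConHomeo.refl (conicalSet_Icc (1 / 2 : ℝ) 1))))

theorem polar_snd (x : ℝ × ℝ) : (polar.toFun x).2 = ‖x‖ := by
  show ‖pairHomeo.toFun x‖ = ‖x‖
  exact pairHomeo_norm x

theorem pairHomeo_polar_fst (x : ℝ × ℝ) : pairHomeo.toFun (polar.toFun x).1 =
    fun i => annI ‖pairHomeo.toFun x‖ (pairHomeo.toFun x i) := by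
  show pairHomeo.toFun (pairHomeo.invFun (fun i => annI ‖pairHomeo.toFun x‖
    (pairHomeo.toFun x i))) = _
  exact pairHomeo.right_inv (mem_univ _)

theorem polar_fst_of_sphere {x : ℝ × ℝ} (hx : ‖x‖ = 1) : (polar.toFun x).1 = x := by
  have h1 : pairHomeo.toFun (polar.toFun x).1 = pairHomeo.toFun x := by
    rw [pairHomeo_polar_fst, pairHomeo_norm, hx]
    funext i
    have h1 := annR_one (annI 1 (pairHomeo.toFun x i))
    rw [annR_annI le_rfl] at h1
    exact h1.symm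
  exact pairHomeo.injOn (mem_univ _) (mem_univ _) h1

/-! ### The essential test in the plane `ℝ × ℝ` -/

theorem pairHomeo_sub (x y : ℝ × ℝ) :
    pairHomeo.toFun (x - y) = pairHomeo.toFun x - pairHomeo.toFun y := by
  show (![(x - y).1, (x - y).2] : Fin 2 → ℝ) = ![x.1, x.2] - ![y.1, y.2]
  ext i; fin_cases i <;> rfl

theorem frontier_pairHomeo (D : Set (ℝ × ℝ)) :
    frontier (pairHomeo.toFun '' D) = pairHomeo.toFun '' frontier D :=
  (pairHomeo.image_frontier D).symm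

theorem notMem_of_bounds₂ {D₀ γ₀ : Set (ℝ × ℝ)} (hD₀ : AmbDisc D₀) (hγ₀ : frontier D₀ = γ₀)
    {E' γ' : Set G} (hE' : ConBall 2 E' γ') (τ : ConHomeo γ₀ γ')
    {v : G → ℝ × ℝ} (hv : ContinuousOn v E') {m : ℝ × ℝ} (hv0 : ∀ x ∈ E', v x ≠ m)
    (hclose : ∀ y ∈ γ₀, 2 * ‖v (τ.toFun y) - y‖ ≤ ‖v (τ.toFun y) - m‖) : m ∉ D₀ := by
  subst hγ₀
  have hb := (SCH.conBall_of_ambDisc hD₀).image pairHomeo (subset_univ _)
  have hγc : ConicalSet (frontier D₀) := (SCH.conBall_of_ambDisc hD₀).conicalSet_bdry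
  intro hm
  refine notMem_of_bounds (v := fun x => pairHomeo.toFun (v x) - pairHomeo.toFun m)
    (m := pairHomeo.toFun m) hb
    (frontier_pairHomeo D₀).subset hE' ((pairHomeo.restr hγc (subset_univ _)).symm.trans τ) ?_ ?_ ?_
    ⟨m, hm, rfl⟩
  · exact (pairHomeo.cont.comp hv (mapsTo_univ _ _)).sub continuousOn_const
  · intro x hx h
    rw [sub_eq_zero] at h
    exact hv0 x hx (pairHomeo.injOn (mem_univ _) (mem_univ _) h)
  · rintro _ ⟨y, hy, rfl⟩
    show ‖pairHomeo.toFun y - pairHomeo.toFun m -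
      (pairHomeo.toFun (v (τ.toFun (pairHomeo.invFun (pairHomeo.toFun y)))) - pairHomeo.toFun m)‖ ≤
      ‖pairHomeo.toFun (v (τ.toFun (pairHomeo.invFun (pairHomeo.toFun y)))) -
        pairHomeo.toFun m‖ / 2
    rw [pairHomeo.left_inv (mem_univ y)]
    have := hclose y hy
    rw [sub_sub_sub_cancel_right, ← pairHomeo_sub, ← pairHomeo_sub, pairHomeo_norm,
      pairHomeo_norm, norm_sub_rev y]
    linarith

theorem mem_of_essential₂ {D₀ γ₀ : Set (ℝ × ℝ)} (hD₀ : AmbDisc D₀) (hγ₀ : frontier D₀ = γ₀)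
    {E' γ' : Set (ℝ × ℝ)} (hE' : AmbDisc E') (hγ' : frontier E' = γ')
    (hball : E' ⊆ ball 0 1) (hess : closedBall 0 (1 / 2) ⊆ E') (hγA : γ' ⊆ Ann)
    (τ : ConHomeo γ₀ γ') {Δ₀ : Set (ℝ × ℝ)} (hΔ : AmbDisc Δ₀)
    {m : ℝ × ℝ} (hmΔ : m ∈ interior Δ₀)
    (σ : ConHomeo (sphere (0 : ℝ × ℝ) 1) (frontier Δ₀))
    (hclose : ∀ y ∈ γ₀, 2 * ‖σ.toFun (polar.toFun (τ.toFun y)).1 - y‖ ≤ ‖y - m‖) : m ∈ D₀ := by
  subst hγ₀ hγ'
  have hb := (SCH.conBall_of_ambDisc hD₀).image pairHomeo (subset_univ _)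
  have hb' := (SCH.conBall_of_ambDisc hE').image pairHomeo (subset_univ _)
  have hbΔ := (SCH.conBall_of_ambDisc hΔ).image pairHomeo (subset_univ _)
  have hγc : ConicalSet (frontier D₀) := (SCH.conBall_of_ambDisc hD₀).conicalSet_bdry
  have hγc' : ConicalSet (frontier E') := (SCH.conBall_of_ambDisc hE').conicalSet_bdry
  have hΔc : ConicalSet (frontier Δ₀) := (SCH.conBall_of_ambDisc hΔ).conicalSet_bdry
  let σ' : ConHomeo (sphere (0 : Fin 2 → ℝ) 1) (pairHomeo.toFun '' frontier Δ₀) :=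
    pairSph.symm.trans (σ.trans (pairHomeo.restr hΔc (subset_univ _)))
  have hmΔ' : pairHomeo.toFun m ∉ pairHomeo.toFun '' frontier Δ₀ := by
    rintro ⟨y, hy, hym⟩
    have := pairHomeo.injOn (mem_univ _) (mem_univ _) hym
    rw [this] at hy
    exact hy.2 hmΔ
  have hmain := mem_of_essential (v := annV σ'.toFun (pairHomeo.toFun m))
    (m := pairHomeo.toFun m) hb hb' (frontier_pairHomeo E').subset ?_ ?_ ?_
    (((pairHomeo.restr hγc (subset_univ _)).symm.trans τ).trans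
      (pairHomeo.restr hγc' (subset_univ _))) (continuousOn_annV σ' _)
    (fun x hx => annV_ne_zero σ' hmΔ' hx) hbΔ (frontier_pairHomeo Δ₀).subset
    ⟨m, interior_subset hmΔ, rfl⟩ σ' (fun x hx => annV_sphere hx) ?_
  · obtain ⟨y, hy, hym⟩ := hmain
    rwa [← pairHomeo.injOn (mem_univ _) (mem_univ _) hym]
  · rintro _ ⟨x, hx, rfl⟩
    rw [mem_ball_zero_iff, pairHomeo_norm]
    exact mem_ball_zero_iff.1 (hball hx)
  · intro x hx
    rw [← pairHomeo_image_closedBall 1] at hx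
    obtain ⟨p, hp, rfl⟩ := hx
    rw [mem_closedBall_zero_iff] at hp
    rcases le_total ‖p‖ (1 / 2) with h | h
    · exact Or.inl ⟨p, hess (mem_closedBall_zero_iff.2 h), rfl⟩
    · right
      show ‖pairHomeo.toFun p‖ ∈ Icc (1 / 2 : ℝ) 1
      rw [pairHomeo_norm]; exact ⟨h, hp⟩
  · rintro _ ⟨x, hx, rfl⟩
    show ‖pairHomeo.toFun x‖ ∈ Icc (1 / 2 : ℝ) 1
    rw [pairHomeo_norm]; exact hγA hx
  · rintro _ ⟨y, hy, rfl⟩
    show ‖annV σ'.toFun (pairHomeo.toFun m) (pairHomeo.toFun (τ.toFun (pairHomeo.invFun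
      (pairHomeo.toFun y)))) - (pairHomeo.toFun y - pairHomeo.toFun m)‖ ≤
      ‖pairHomeo.toFun y - pairHomeo.toFun m‖ / 2
    rw [pairHomeo.left_inv (mem_univ y)]
    have e1 : annV σ'.toFun (pairHomeo.toFun m) (pairHomeo.toFun (τ.toFun y)) =
        pairHomeo.toFun (σ.toFun (polar.toFun (τ.toFun y)).1) - pairHomeo.toFun m := by
      show σ'.toFun (fun i => annI ‖pairHomeo.toFun (τ.toFun y)‖
        (pairHomeo.toFun (τ.toFun y) i)) - pairHomeo.toFun m = _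
      rw [← pairHomeo_polar_fst]
      show pairHomeo.toFun (σ.toFun (pairHomeo.invFun (pairHomeo.toFun
        (polar.toFun (τ.toFun y)).1))) - pairHomeo.toFun m = _
      rw [pairHomeo.left_inv (mem_univ _)]
    rw [e1, sub_sub_sub_cancel_right, ← pairHomeo_sub, ← pairHomeo_sub, pairHomeo_norm,
      pairHomeo_norm]
    have := hclose y hy
    linarith

end P073
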