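import Vale.Agent.P073.PA260.DiscE

/-!
# P073, block PA (helper260): `specDisc`
-/

open Set Metric Topology Filter

namespace P073.PA260

open PA691

open H339 (pairHomeo pairHomeo_image_closedBall pairHomeo_image_sphere conSphere_iff
  pairHomeo_norm pairHomeo_inv_norm conicalSet_sphere_prod)

variable {G : Type*} [NormedAddCommGroup G] [NormedSpace ℝ G]

variable {O I N D₀ : Set G} {κ : ConHomeo (FA ×ˢ Icc (-1:ℝ) 1) N} {Q₀ : Set (ℝ × ℝ)}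
  {g : ConHomeo Q₀ D₀}

/-- **DISC** in the context. -/
theorem Ctx.disc (H : Ctx O I N D₀ κ Q₀ g) {Δ ζ : Set P2} (hΔ : ConBall 2 Δ ζ)
    (h0Δ : (0 : P2) ∈ Δ) (h0ζ : (0 : P2) ∉ ζ) (z : ConHomeo S1 ζ)
    (hseg : ∀ y ∈ Q₀, ∀ θ ∈ S1, ∀ τ ∈ Icc (-1:ℝ) 1, ∀ t ∈ Icc (-1:ℝ) 1,
      g.toFun y = κ.toFun ((θ, τ), t) → (0 : P2) ∉ segment ℝ (pairHomeo.toFun y) (z.toFun θ)) :
    ∃ D : Set G, ConBall 2 D (κ.toFun '' ((S1 ×ˢ {0}) ×ˢ {0})) ∧
      (∀ x ∈ D, x ∉ κ.toFun '' ((S1 ×ˢ {(0:ℝ)}) ×ˢ {(0:ℝ)}) → x ∈ O) ∧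
      D ⊆ D₀ ∪ κ.toFun '' (FA ×ˢ Icc (0:ℝ) 1) ∧
      ∀ M ⊆ Q₀, IsPreconnected M → (0 : ℝ × ℝ) ∈ M → (∀ y ∈ M, g.toFun y ∉ N) →
        g.toFun '' M ⊆ D := by
  obtain ⟨c, hc, E', hE', hEb, hEf, hEc, D₁, hD₁, hD₁O, hD₁sub, hlow, hside, hM⟩ :=
    H.capped hΔ h0Δ h0ζ z hseg
  have hf : frontier E' ⊆ E' := hE'.isClosed.frontier_subset
  set R' : Set (ℝ × ℝ) := closedBall 0 1 \ interior E' with hR'
  have hRA : R' ⊆ Ann := by
    intro x hx
    refine ⟨?_, mem_closedBall_zero_iff.1 hx.1⟩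
    by_contra hn
    rw [not_le] at hn
    exact hx.2 (hEc (mem_closedBall_zero_iff.2 hn.le))
  have hRc : IsCompact R' := (isCompact_closedBall (0 : ℝ × ℝ) 1).of_isClosed_subset
    (isClosed_closedBall.sdiff isOpen_interior) sdiff_subset
  have hRcon : ConicalSet R' :=
    ((locCone_closedBall_prod 1).inter hE'.locCone.interior.compl).conicalSet
  have hEcb : E' ⊆ closedBall 0 1 := hEb.trans ball_subset_closedBall
  have hsph : sphere (0 : ℝ × ℝ) 1 ⊆ R' := by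
    intro x hx
    refine ⟨sphere_subset_closedBall hx, fun h => ?_⟩
    have h1 := mem_ball_zero_iff.1 (hEb (interior_subset h))
    have h2 := mem_sphere_zero_iff_norm.1 hx
    linarith
  let α : ConHomeo R' (chA.toFun '' R') := chA.restr hRcon hRA
  have hR2 : (ConHomeo.refl conicalSet_FA).toFun '' (S1 ×ˢ Icc (0:ℝ) 1) ⊆ FA := by
    rintro _ ⟨p, hp, rfl⟩
    show p ∈ FA
    exact ⟨hp.1, by linarith [hp.2.1], hp.2.2⟩
  obtain ⟨D, hD, hDD, hDsub, hD0⟩ := exists_leg_ring (n := 2) κ (F := FA)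
    (ζ := S1 ×ˢ {(0:ℝ)}) (c := chA.toFun '' frontier E') (c' := S1 ×ˢ {(1:ℝ)})
    (s₀ := 0) (s₁ := c / 4) (s₂ := c / 2) (s₃ := c) (by linarith [hc.1]) (by linarith [hc.1])
    (by linarith [hc.1])
    (prod_mono subset_rfl fun t ht => ⟨by linarith [ht.1], ht.2.trans hc.2.le⟩)
    (SCH.conBall_of_ambDisc hE') H339.conBall_std
    (R' := R') (by
      ext x
      constructor
      · rintro (h | h)
        · exact hEcb h
        · exact h.1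
      · intro hx
        by_cases h : x ∈ E'
        · exact Or.inl h
        · exact Or.inr ⟨hx, fun h' => h (interior_subset h')⟩)
    (fun x hx => ⟨subset_closure hx.1, hx.2.2⟩)
    (fun x hx => ⟨hEcb (hf hx), hx.2⟩) hRc hsph α rfl
    (by
      show chA.toFun '' sphere 0 1 = S1 ×ˢ {(1:ℝ)}
      have h1 := annChart_image_sphere pairSph (ConHomeo.refl conicalSet_FA)
      refine h1.trans ?_
      exact image_id _)
    ((halfCollar conicalSet_S1 (ConHomeo.refl conicalSet_FA)).cast (by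
      have : (ConHomeo.refl conicalSet_FA).toFun '' (S1 ×ˢ {(1:ℝ)}) = S1 ×ˢ {(1:ℝ)} := image_id _
      rw [this]) rfl)
    (by
      rintro ⟨θ, s⟩ ⟨hθ, hs⟩
      rw [mem_singleton_iff] at hs
      simp only at hs hθ
      subst hs
      have := halfCollar_apply conicalSet_S1 (ConHomeo.refl conicalSet_FA) hθ 0
      rw [sub_zero] at this
      exact this)
    (by
      ext p
      constructor
      · rintro ⟨⟨⟨θ, s⟩, t⟩, ⟨⟨hθ, hs⟩, ht⟩, rfl⟩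
        rw [mem_singleton_iff] at hs ht
        simp only at hs hθ ht
        subst hs ht
        have := halfCollar_apply conicalSet_S1 (ConHomeo.refl conicalSet_FA) hθ 1
        rw [sub_self] at this
        have h2 : ((halfCollar conicalSet_S1 (ConHomeo.refl conicalSet_FA)).toFun ((θ, 1), 1)) =
          (θ, 0) := this
        have h3 : ((θ, 0) : P2 × ℝ) ∈ S1 ×ˢ {(0:ℝ)} := ⟨hθ, rfl⟩
        exact mem_of_eq_of_mem h2 h3
      · rintro ⟨hθ, hs⟩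
        rw [mem_singleton_iff] at hs
        refine ⟨((p.1, 1), 1), ⟨⟨hθ, rfl⟩, rfl⟩, ?_⟩
        have := halfCollar_apply conicalSet_S1 (ConHomeo.refl conicalSet_FA) hθ 1
        rw [sub_self] at this
        have h2 : ((halfCollar conicalSet_S1 (ConHomeo.refl conicalSet_FA)).toFun ((p.1, 1), 1)) =
          (p.1, 0) := this
        exact h2.trans (Prod.ext rfl hs.symm))
    (by
      rintro _ ⟨x, hx, rfl⟩
      exact chA.mapsTo (hRA hx))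
    hR2 hD₁ hlow hside
  refine ⟨D, hD, ?_, ?_, fun M h1 h2 h3 h4 => (hM M h1 h2 h3 h4).trans hDD⟩
  · intro x hx hxn
    rcases hDsub hx with h | ⟨⟨p, t⟩, ⟨hp, ht⟩, rfl⟩
    · exact hD₁O h
    · have hpF : p ∈ FA := by
        rcases hp with ⟨w, hw, rfl⟩ | hq
        · exact chA.mapsTo (hRA hw)
        · exact hR2 hq
      rcases eq_or_lt_of_le ht.1 with h0 | h0
      · exfalso
        have h0' : t = 0 := h0.symm
        subst h0'
        exact hxn ⟨(p, 0), ⟨hD0 p hpF hx, rfl⟩, rfl⟩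
      · exact H.hpos p hpF t ⟨h0, ht.2.trans hc.2.le⟩
  · intro x hx
    rcases hDsub hx with h | ⟨⟨p, t⟩, ⟨hp, ht⟩, rfl⟩
    · exact hD₁sub h
    · have hpF : p ∈ FA := by
        rcases hp with ⟨w, hw, rfl⟩ | hq
        · exact chA.mapsTo (hRA hw)
        · exact hR2 hq
      exact Or.inr ⟨(p, t), ⟨hpF, ht.1, ht.2.trans hc.2.le⟩, rfl⟩

/-- **(DISC)** -/
theorem specDisc : SpecDisc := by
  intro O I N D₀ K g ζ Δ z hO hI hOI hKo hKp hKn hΔ hΔb h0Δ h0ζ hgcov hgK hg0 hg0N hgS1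
  let κ : ConHomeo (FA ×ˢ Icc (-1:ℝ) 1) N := assocI.trans K
  have hcb : ConicalSet (closedBall (0 : ℝ × ℝ) 1) := (locCone_closedBall_prod 1).conicalSet
  let g' : ConHomeo (closedBall (0 : ℝ × ℝ) 1) D₀ :=
    ((pairHomeo.restr hcb (subset_univ _)).cast rfl (pairHomeo_image_closedBall 1)).trans g
  have hp0 : pairHomeo.toFun (0 : ℝ × ℝ) = 0 :=
    norm_eq_zero.1 ((pairHomeo_norm 0).trans norm_zero)
  have hpQ : ∀ y ∈ closedBall (0 : ℝ × ℝ) 1, pairHomeo.toFun y ∈ Q0 := by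
    intro y hy
    rw [mem_closedBall_zero_iff] at hy ⊢
    rwa [pairHomeo_norm]
  have hg' : ∀ y, g'.toFun y = g.toFun (pairHomeo.toFun y) := fun _ => rfl
  have H : Ctx O I N D₀ κ (closedBall (0 : ℝ × ℝ) 1) g' :=
    { hQ := H339.ambDisc_std.sch
      hO := hO
      hI := hI
      hOI := hOI
      hκo := by
        have e : κ.toFun '' (FO ×ˢ Ioo (-1:ℝ) 1) =
            K.toFun '' (S1 ×ˢ (Ioo (-1:ℝ) 1 ×ˢ Ioo (-1:ℝ) 1)) := by
          ext x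
          constructor
          · rintro ⟨⟨⟨θ, τ⟩, t⟩, ⟨⟨h1, h2⟩, h3⟩, rfl⟩
            exact ⟨(θ, τ, t), ⟨h1, h2, h3⟩, rfl⟩
          · rintro ⟨⟨θ, τ, t⟩, ⟨h1, h2, h3⟩, rfl⟩
            exact ⟨((θ, τ), t), ⟨⟨h1, h2⟩, h3⟩, rfl⟩
        rw [e]; exact hKo
      hpos := fun p hp t ht => hKp p.1 hp.1 p.2 hp.2 t ht
      hneg := fun p hp t ht => hKn p.1 hp.1 p.2 hp.2 t ht
      hcov := by
        intro y hy
        rcases hgcov _ (hpQ y hy) with h | ⟨⟨θ, τ, t⟩, ⟨h1, h2, h3⟩, he⟩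
        · exact Or.inl h
        · exact Or.inr ⟨((θ, τ), t), ⟨⟨h1, h2⟩, h3⟩, he⟩
      hτ := by
        rintro y hy ⟨θ, τ⟩ hp t ht he
        exact ⟨hp.1, (hgK _ (hpQ y hy) θ hp.1 τ hp.2 t ht he).1⟩
      h0 := by
        rw [interior_closedBall _ one_ne_zero]; exact mem_ball_self one_pos
      hg0 := by rw [hg', hp0]; exact hg0
      hg0N := by rw [hg', hp0]; exact hg0N
      hgS := by
        intro y hy
        rw [frontier_closedBall _ one_ne_zero, mem_sphere_zero_iff_norm] at hy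
        refine hgS1 (pairHomeo.toFun y) ?_
        rw [mem_sphere_zero_iff_norm, pairHomeo_norm]; exact hy }
  obtain ⟨D, h1, h2, h3, h4⟩ := H.disc hΔ h0Δ h0ζ z (fun y hy θ hθ τ hτ t ht he =>
    (hgK _ (hpQ y hy) θ hθ τ hτ t ht he).2)
  have e0 : κ.toFun '' ((S1 ×ˢ {(0:ℝ)}) ×ˢ {(0:ℝ)}) = K.toFun '' (S1 ×ˢ ({0} ×ˢ {0})) := by
    ext x
    constructor
    · rintro ⟨⟨⟨θ, τ⟩, t⟩, ⟨⟨h1, h2⟩, h3⟩, rfl⟩
      exact ⟨(θ, τ, t), ⟨h1, h2, h3⟩, rfl⟩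
    · rintro ⟨⟨θ, τ, t⟩, ⟨h1, h2, h3⟩, rfl⟩
      exact ⟨((θ, τ), t), ⟨⟨h1, h2⟩, h3⟩, rfl⟩
  rw [e0] at h1 h2
  refine ⟨D, h1, fun x hx => h2 x hx.1 hx.2, fun x hx => ?_, fun M hM hMc h0M hMN => ?_⟩
  · rcases h3 hx with h | ⟨⟨⟨θ, τ⟩, t⟩, ⟨⟨h1, h2⟩, h3⟩, rfl⟩
    · exact Or.inl h
    · exact Or.inr ⟨(θ, τ, t), ⟨h1, h2, h3⟩, rfl⟩
  · have h5 := h4 (pairHomeo.invFun '' M) ?_ (hMc.image _ ?_) ⟨0, h0M, ?_⟩ ?_
    · rintro _ ⟨y, hy, rfl⟩
      refine h5 ⟨_, ⟨y, hy, rfl⟩, ?_⟩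
      rw [hg', pairHomeo.right_inv (mem_univ y)]
    · rintro _ ⟨y, hy, rfl⟩
      rw [mem_closedBall_zero_iff, pairHomeo_inv_norm]
      exact mem_closedBall_zero_iff.1 (hM hy)
    · exact pairHomeo.cont_inv.mono (subset_univ _)
    · exact norm_eq_zero.1 ((pairHomeo_inv_norm 0).trans norm_zero)
    · rintro _ ⟨y, hy, rfl⟩
      rw [hg', pairHomeo.right_inv (mem_univ y)]
      exact hMN y hy

end P073.PA260
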