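import Vale.Agent.P073.PA260.Collar

/-!
# P073, block PA (helper260): conical balls are local cones (two-sided), conical bumps

`ConHomeo.locConeAt` : a conical homeomorphism `X → Y`, `Y` compact and locally a cone at `h x`,
then `X` is locally a cone at `x` (two-sided version).  Consequences: conical balls and their
boundaries are `LocCone`; bump functions of conical balls in a surface.
-/

open Set Metric Topology Filter

namespace P073

variable {E F G : Type*} [NormedAddCommGroup E] [NormedSpace ℝ E]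
  [NormedAddCommGroup F] [NormedSpace ℝ F] [NormedAddCommGroup G] [NormedSpace ℝ G]

theorem ConHomeo.locConeAt {X : Set E} {Y : Set F} (h : ConHomeo X Y) (hY : IsCompact Y) {x : E}
    (hx : x ∈ X) (hl : LocConeAt Y (h.toFun x)) : LocConeAt X x := by
  obtain ⟨r₁, hr₁, H₁⟩ := h.conical_inv (h.toFun x) (h.mapsTo hx)
  obtain ⟨r₂, hr₂, H₂⟩ := hl
  obtain ⟨r₃, hr₃, H₃⟩ := h.conical x hx
  set r := min r₁ r₂ with hr
  have hr0 : 0 < r := lt_min hr₁ hr₂
  have hcont : ∀ᶠ y in 𝓝[X] x, h.toFun y ∈ closedBall (h.toFun x) r :=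
    h.cont x hx (closedBall_mem_nhds _ hr0)
  obtain ⟨ρ, hρ, hb⟩ := exists_radius_of_nhdsWithin hcont
  have hgx : h.invFun (h.toFun x) = x := h.left_inv hx
  -- lower bound on the sphere
  obtain ⟨m, hm0, hm⟩ : ∃ m > 0, ∀ u : F, ‖u‖ = r → h.toFun x + u ∈ Y →
      m ≤ ‖h.invFun (h.toFun x + u) - x‖ := by
    have hK : IsCompact (Y ∩ sphere (h.toFun x) r) := hY.inter_right isClosed_sphere
    rcases (Y ∩ sphere (h.toFun x) r).eq_empty_or_nonempty with he | hne
    · refine ⟨1, one_pos, fun u hu huY => ?_⟩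
      exfalso
      have : h.toFun x + u ∈ Y ∩ sphere (h.toFun x) r := ⟨huY, by
        rw [mem_sphere, dist_eq_norm, add_sub_cancel_left]; exact hu⟩
      rw [he] at this
      exact this
    · have hc : ContinuousOn (fun y => ‖h.invFun y - x‖) (Y ∩ sphere (h.toFun x) r) :=
        ((h.cont_inv.mono inter_subset_left).sub continuousOn_const).norm
      obtain ⟨y₀, hy₀, hmin⟩ := hK.exists_isMinOn hne hc
      refine ⟨‖h.invFun y₀ - x‖, ?_, fun u hu huY => ?_⟩
      · rw [gt_iff_lt, norm_pos_iff, sub_ne_zero]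
        intro he
        have : h.toFun x = y₀ := by rw [← he, h.right_inv hy₀.1]
        have h1 := hy₀.2
        rw [← this, mem_sphere, dist_self] at h1
        exact hr0.ne h1
      · exact hmin (show h.toFun x + u ∈ Y ∩ sphere (h.toFun x) r from ⟨huY, by
          rw [mem_sphere, dist_eq_norm, add_sub_cancel_left]; exact hu⟩)
  refine ⟨min (min ρ m) r₃, lt_min (lt_min hρ hm0) hr₃, fun w hw t ht => ⟨fun htw => ?_, fun hw' =>
    (H₃ w (hw.trans (min_le_right _ _)) hw' t ⟨ht.1.le, ht.2⟩).1⟩⟩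
  by_cases hw0 : w = 0
  · rw [hw0, add_zero]; exact hx
  have hwpos : 0 < ‖w‖ := norm_pos_iff.2 hw0
  have hwρ : ‖w‖ ≤ ρ := hw.trans ((min_le_left _ _).trans (min_le_left _ _))
  have hwm : ‖w‖ ≤ m := hw.trans ((min_le_left _ _).trans (min_le_right _ _))
  set u := h.toFun (x + t • w) - h.toFun x with hu
  have hxu : h.toFun x + u = h.toFun (x + t • w) := by rw [hu]; abel
  have hur : ‖u‖ ≤ r := by
    have h1 := hb (t • w) (norm_smul_le_of_mem_Icc ⟨ht.1.le, ht.2⟩ hwρ) htw
    rwa [mem_closedBall, dist_eq_norm] at h1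
  have hu0 : u ≠ 0 := by
    intro h0
    have h1 : h.toFun (x + t • w) = h.toFun x := sub_eq_zero.1 h0
    have h2 := h.injOn htw hx h1
    have h3 : t • w = 0 := by simpa using h2
    rcases smul_eq_zero.1 h3 with h4 | h4
    · exact ht.1.ne' h4
    · exact hw0 h4
  have hupos : 0 < ‖u‖ := norm_pos_iff.2 hu0
  set s := r / ‖u‖ with hs
  have hs1 : 1 ≤ s := (one_le_div hupos).2 hur
  have hs0 : 0 < s := by linarith
  have hnorm : ‖s • u‖ = r := by
    rw [norm_smul, Real.norm_of_nonneg hs0.le, hs, div_mul_cancel₀ _ hupos.ne']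
  have hsinv : s⁻¹ ∈ Ioc (0:ℝ) 1 := ⟨inv_pos.2 hs0, inv_le_one_of_one_le₀ hs1⟩
  have hsu : s⁻¹ • s • u = u := by rw [smul_smul, inv_mul_cancel₀ hs0.ne', one_smul]
  have hY' : h.toFun x + s • u ∈ Y := by
    rw [← H₂ (s • u) (hnorm.le.trans (min_le_right _ _)) s⁻¹ hsinv, hsu, hxu]
    exact h.mapsTo htw
  have hle := hm (s • u) hnorm hY'
  -- the point on the sphere
  have key := fun τ hτ => (H₁ (s • u) (hnorm.le.trans (min_le_left _ _)) hY' τ hτ)
  have k1 := (key s⁻¹ ⟨hsinv.1.le, hsinv.2⟩).2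
  rw [hsu, hxu, h.left_inv htw, hgx] at k1
  have k2 : h.invFun (h.toFun x + s • u) - x = (s * t) • w := by
    have : t • w = s⁻¹ • (h.invFun (h.toFun x + s • u) - x) := add_left_cancel k1
    rw [mul_smul, this, smul_smul, mul_inv_cancel₀ hs0.ne', one_smul]
  rw [k2, norm_smul, Real.norm_of_nonneg (mul_nonneg hs0.le ht.1.le)] at hle
  have hst : 1 ≤ s * t := by
    by_contra hlt
    push Not at hlt
    have := mul_lt_mul_of_pos_right hlt hwpos
    linarith
  have hst0 : 0 < s * t := by linarith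
  obtain ⟨k3, k4⟩ := key (s * t)⁻¹ ⟨(inv_pos.2 hst0).le, inv_le_one_of_one_le₀ hst⟩
  have e4 : (s * t)⁻¹ • ((s * t) • w) = w := by
    rw [smul_smul, inv_mul_cancel₀ hst0.ne', one_smul]
  rw [hgx, k2, e4] at k4
  rw [← k4]
  exact h.mapsTo_inv k3

/-- conical images of compact polyhedra are polyhedra -/
theorem ConHomeo.locCone {X : Set E} {Y : Set F} (h : ConHomeo X Y) (hY : IsCompact Y)
    (hl : LocCone Y) : LocCone X := by
  intro x
  by_cases hx : x ∈ X
  · exact h.locConeAt hY hx (hl _)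
  · have hX : IsClosed X := (h.symm.isCompact_right hY).isClosed
    exact locConeAt_of_compl_mem_nhds (hX.isOpen_compl.mem_nhds hx)

theorem PA260.locCone_sphere_pi (n : ℕ) : LocCone (sphere (0 : Fin n → ℝ) 1) := by
  rcases Nat.eq_zero_or_pos n with h | h
  · subst h
    have : sphere (0 : Fin 0 → ℝ) 1 = ∅ := by
      rw [eq_empty_iff_forall_notMem]
      intro x hx
      rw [mem_sphere_zero_iff_norm] at hx
      have : x = 0 := Subsingleton.elim _ _
      rw [this, norm_zero] at hx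
      exact absurd hx zero_ne_one
    rw [this]; exact locCone_empty
  · have : Nonempty (Fin n) := ⟨⟨0, h⟩⟩
    have h1 : sphere (0 : Fin n → ℝ) 1 = frontier (closedBall 0 1) :=
      (frontier_closedBall _ one_ne_zero).symm
    rw [h1]
    exact (locCone_closedBall_pi n 1).frontier

theorem ConBall.locCone₂ {n : ℕ} {C B : Set E} (h : ConBall n C B) : LocCone C := by
  obtain ⟨_, φ, _⟩ := h
  exact φ.locCone (isCompact_closedBall _ _) (locCone_closedBall_pi n 1)

theorem ConBall.locCone_bdry₂ {n : ℕ} {C B : Set E} (h : ConBall n C B) : LocCone B := by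
  have hB := h.conicalSet_bdry
  obtain ⟨hBC, φ, hφ⟩ := h
  exact ((φ.restr hB hBC).cast rfl hφ).locCone (isCompact_sphere _ _) (PA260.locCone_sphere_pi n)

theorem ConSphere.locCone₂ {n : ℕ} {B : Set E} (h : ConSphere n B) : LocCone B := by
  obtain ⟨φ⟩ := h
  exact φ.locCone (isCompact_sphere _ _) (PA260.locCone_sphere_pi (n + 1))

/-! ### Bump functions -/

/-- A function which is conical on `B`, zero off `B \ β`, is conical on `F`. -/
theorem conicalOn_bump {F B β : Set E} {b : E → ℝ} (hF : ConicalSet F) (hB : LocCone B)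
    (hBc : IsClosed B) (hBF : B ⊆ F) (hopen : ∃ U, IsOpen U ∧ U ∩ F = B \ β)
    (hb : ConicalOn b B) (hb0 : ∀ x ∉ B, b x = 0) (hbβ : ∀ x ∈ β, b x = 0) : ConicalOn b F := by
  intro x hx
  by_cases hxB : x ∈ B
  · by_cases hxβ : x ∈ β
    · -- boundary point
      obtain ⟨r₁, hr₁, H₁⟩ := hb x hxB
      obtain ⟨r₂, hr₂, H₂⟩ := hB x
      obtain ⟨r₃, hr₃, H₃⟩ := hF x hx
      refine ⟨min r₁ (min r₂ r₃), lt_min hr₁ (lt_min hr₂ hr₃), fun v hv hxv t ht => ?_⟩
      have hv1 : ‖v‖ ≤ r₁ := hv.trans (min_le_left _ _)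
      have hv2 : ‖v‖ ≤ r₂ := hv.trans ((min_le_right _ _).trans (min_le_left _ _))
      have hv3 : ‖v‖ ≤ r₃ := hv.trans ((min_le_right _ _).trans (min_le_right _ _))
      refine ⟨H₃ v hv3 hxv t ht, ?_⟩
      by_cases hvB : x + v ∈ B
      · exact (H₁ v hv1 hvB t ht).2
      · rw [hbβ x hxβ, hb0 _ hvB, sub_zero, smul_zero, zero_add]
        rcases eq_or_lt_of_le ht.1 with h0 | h0
        · rw [← h0, zero_smul, add_zero, hbβ x hxβ]
        · refine hb0 _ fun h => hvB ?_
          exact (H₂ v hv2 t ⟨h0, ht.2⟩).1 h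
    · -- interior point
      obtain ⟨U, hU, hUF⟩ := hopen
      have hxU : x ∈ U := by
        have : x ∈ U ∩ F := hUF ▸ ⟨hxB, hxβ⟩
        exact this.1
      refine (hb x hxB).congr_nhds ?_ (Eventually.of_forall fun y _ => rfl) rfl
      filter_upwards [hU.mem_nhds hxU] with y hy
      refine ⟨fun hyF => ?_, fun h => hBF h⟩
      have : y ∈ B \ β := hUF ▸ ⟨hy, hyF⟩
      exact this.1
  · have h1 : Bᶜ ∈ 𝓝 x := hBc.isOpen_compl.mem_nhds hxB
    refine (conicalOn_const (0:ℝ) hF x hx).congr_nhds (Eventually.of_forall fun y => Iff.rfl) ?_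
      (hb0 x hxB)
    filter_upwards [h1] with y hy _
    exact hb0 y hy

omit [NormedSpace ℝ E] in
theorem continuousOn_bump {F B β : Set E} {b : E → ℝ} (hBc : IsClosed B)
    (hopen : ∃ U, IsOpen U ∧ U ∩ F = B \ β)
    (hb : ContinuousOn b B) (hb0 : ∀ x ∉ B, b x = 0) (hbβ : ∀ x ∈ β, b x = 0) :
    ContinuousOn b F := by
  obtain ⟨U, hU, hUF⟩ := hopen
  have h1 : ContinuousOn b (B ∪ (F \ U)) := by
    intro x hx
    have hz : ∀ y ∈ F \ U, b y = 0 := fun y hy => by
      by_cases hyB : y ∈ B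
      · by_cases hyβ : y ∈ β
        · exact hbβ y hyβ
        · have : y ∈ U ∩ F := hUF ▸ ⟨hyB, hyβ⟩
          exact absurd this.1 hy.2
      · exact hb0 y hyB
    refine ContinuousWithinAt.union ?_ ?_
    · by_cases hxB : x ∈ B
      · exact hb x hxB
      · have : 𝓝[B] x = ⊥ := by
          rw [← notMem_closure_iff_nhdsWithin_eq_bot, hBc.closure_eq]; exact hxB
        rw [ContinuousWithinAt, this]; exact tendsto_bot
    · by_cases hxU : x ∈ U
      · have : 𝓝[F \ U] x = ⊥ := by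
          rw [← notMem_closure_iff_nhdsWithin_eq_bot]
          intro hcl
          have := closure_mono (show F \ U ⊆ Uᶜ from fun y hy => hy.2) hcl
          rw [hU.isClosed_compl.closure_eq] at this
          exact this hxU
        rw [ContinuousWithinAt, this]; exact tendsto_bot
      · have hbx : b x = 0 := by
          rcases hx with hx | hx
          · by_cases hxβ : x ∈ β
            · exact hbβ x hxβ
            · have : x ∈ U ∩ F := hUF ▸ ⟨hx, hxβ⟩
              exact absurd this.1 hxU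
          · exact hz x hx
        refine (continuousWithinAt_const (b := (0:ℝ))).congr (fun y hy => hz y hy) hbx
  refine h1.mono fun x hx => ?_
  by_cases hxU : x ∈ U
  · have : x ∈ B \ β := hUF ▸ ⟨hxU, hx⟩
    exact Or.inl this.1
  · exact Or.inr ⟨hx, hxU⟩

/-- **Bump function** of a conical ball in a surface. -/
theorem ConBall.exists_bump {n : ℕ} {F B β : Set E} (h : ConBall n B β) (hF : ConicalSet F)
    (hBF : B ⊆ F) (hopen : ∃ U, IsOpen U ∧ U ∩ F = B \ β) :
    ∃ b : E → ℝ, ConicalOn b F ∧ ContinuousOn b F ∧ (∀ x, 0 ≤ b x ∧ b x ≤ 1) ∧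
      (∀ x ∈ B, x ∉ β → 0 < b x) ∧ (∀ x ∉ B, b x = 0) ∧ ∀ x ∈ β, b x = 0 := by
  classical
  have hBl := h.locCone₂
  have hBc := h.isClosed
  obtain ⟨hβB, φ, hφ⟩ := h
  let b : E → ℝ := fun x => if x ∈ B then 1 - ‖φ.toFun x‖ else 0
  have hb1 : ∀ x ∈ B, b x = 1 - ‖φ.toFun x‖ := fun x hx => if_pos hx
  have hb0 : ∀ x ∉ B, b x = 0 := fun x hx => if_neg hx
  have hbβ : ∀ x ∈ β, b x = 0 := by
    intro x hx
    have : φ.toFun x ∈ sphere (0 : Fin n → ℝ) 1 := hφ ▸ mem_image_of_mem _ hx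
    rw [hb1 x (hβB hx), mem_sphere_zero_iff_norm.1 this, sub_self]
  have hcon : ConicalOn b B := by
    have hnorm : ConicalOn (fun y : Fin n → ℝ => ‖y‖) (closedBall 0 1) :=
      conicalOn_norm_pi n (locCone_closedBall_pi n 1).conicalSet
    have h1 : ConicalOn (fun x => ‖φ.toFun x‖) B :=
      ConicalOn.comp (g := fun y : Fin n → ℝ => ‖y‖) hnorm φ.conical φ.mapsTo φ.cont
    exact ((conicalOn_const (1:ℝ) φ.conicalSet_left).sub h1).congr hb1
  have hcont : ContinuousOn b B :=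
    (continuousOn_const.sub φ.cont.norm).congr hb1
  have hle : ∀ x ∈ B, ‖φ.toFun x‖ ≤ 1 := fun x hx => mem_closedBall_zero_iff.1 (φ.mapsTo hx)
  refine ⟨b, conicalOn_bump hF hBl hBc hBF hopen hcon hb0 hbβ,
    continuousOn_bump hBc hopen hcont hb0 hbβ, fun x => ?_, fun x hx hxβ => ?_, hb0, hbβ⟩
  · by_cases hx : x ∈ B
    · rw [hb1 x hx]
      exact ⟨by linarith [hle x hx], by linarith [norm_nonneg (φ.toFun x)]⟩
    · rw [hb0 x hx]; exact ⟨le_refl _, zero_le_one⟩
  · rw [hb1 x hx]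
    have : ‖φ.toFun x‖ ≠ 1 := by
      intro h1
      have h2 : φ.toFun x ∈ φ.toFun '' β := by
        rw [hφ]; exact mem_sphere_zero_iff_norm.2 h1
      obtain ⟨y, hy, hyx⟩ := h2
      have := φ.injOn (hβB hy) hx hyx
      exact hxβ (this ▸ hy)
    have := lt_of_le_of_ne (hle x hx) this
    linarith

end P073
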